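import Vale.Agent.P092.SX.Blocks
import Vale.Agent.P092.SNP.Blocks
import Vale.Agent.P092.H387.Ad2

/-!
P092, TEAM N, two fields (helper943): the joint [P-EX] for products with mixed fields at `t = 1`, and
the source group `∏ PGL_(N j + 1)(k j)`.
-/

set_option linter.all false

open scoped InnerProductSpace ENNReal LinearAlgebra.Projectivization ZeroAtInfty
open Filter Topology ContinuousLinearMap MeasureTheory TopologicalSpace

namespace Vale.Agent.P092.SX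

open Vale.Agent.P092.SN (CY CG inc NInc bw un nm NW Att act PH UD NWA actG fp fh Prv Adm TVE)
open Vale.Agent.P092.SNP (AdmP ZP)
open Vale.Agent.P092.RC (Cm TRN Moore GG PG YY y0 ct)
open Vale.Agent.P092.H35 (sp mkP)
open Vale.Agent.P092.H387.Ad (adm_pgl adm_pi)
open Vale.Agent.P092.H644.PGr (tauP)

open Vale.Agent.P092.SR Vale.Agent.P092.H160 Vale.Agent.P092.RC in
/-- **[P-EX]**, mixed fields, `t = 1`: source fields `k j`, target fields `l j`; `q₁ j` is the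
coordinate `τ₁ j` of the target (dualised if necessary) over the field `l (τ₁ j)`. -/
def ExPStmt {J : Type} [Fintype J] (k l : J → Type) [∀ j, NontriviallyNormedField (k j)]
    [∀ j, ProperSpace (k j)] [∀ j, MeasurableSpace (k j)] [∀ j, NontriviallyNormedField (l j)]
    [∀ j, ProperSpace (l j)] (μ : ∀ j, Measure (k j)) (N : J → ℕ)
    {E : Type} [Group E] [TopologicalSpace E]
    [IsTopologicalGroup E] [LocallyCompactSpace E] [SecondCountableTopology E] [T2Space E]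
    (ι : ∀ j, GG (k j) (N j) →* E) (a a' : ∀ j, E →* PG (k j) (N j + 1)) : Prop :=
  ∀ [MeasurableSpace E] [BorelSpace E] {Γ : Subgroup E} [DiscreteTopology Γ] [Countable Γ]
    [MeasurableSpace (E ⧸ Γ)] [BorelSpace (E ⧸ Γ)] {ν : Measure (E ⧸ Γ)}
    [IsProbabilityMeasure ν] (hν : ∀ g : E, ν.map (fun x => g • x) = ν)
    (_ : H515.St.IsLattice Γ) (_ : ∀ g : Γ, g ≠ 1 → Set.Infinite {y : Γ | ∃ h, y = h * g * h⁻¹})
    {Λ : Type} [Group Λ] [Countable Λ]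
    (_ : ∀ g : Λ, g ≠ 1 → Set.Infinite {y : Λ | ∃ h, y = h * g * h⁻¹})
    {α : Γ →* (Ell2 Λ →L[ℂ] Ell2 Λ)} (hα : Frame α),
    ∃ (w : ∀ j, (k j)ˣ) (m₁ m₂ : Set Γ → (KK ν Λ →L[ℂ] KK ν Λ)) (τ₁ τ₂ : J → J)
      (q₁ : ∀ j, Γ → GG (l (τ₁ j)) (N j)) (q₂ : ∀ j, Γ → GG (l (τ₂ j)) (N j))
      (E₁ F₁ : ∀ j, YY (k j) (N j) → (CY (l (τ₁ j)) (N j) →⋆ₐ[ℂ] (KK ν Λ →L[ℂ] KK ν Λ)))
      (E₂ F₂ : ∀ j, YY (k j) (N j) → (CY (l (τ₂ j)) (N j) →⋆ₐ[ℂ] (KK ν Λ →L[ℂ] KK ν Λ))),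
      (∀ j, LegN (μ j) (w j) (ι j) (a j) (a' j) (pic hν hα) (lam₁ ν α)
        (XX ν Λ ∪ Set.range (lam₂ ν α)) (Om ν Λ) m₁ (q₁ j) (ZP q₁ j) (E₁ j) (F₁ j)) ∧
      (∀ j, LegN (μ j) (w j) (ι j) (a j) (a' j) (pic hν hα) (lam₂ ν α)
        (XX ν Λ ∪ Set.range (lam₁ ν α)) (Om ν Λ) m₂ (q₂ j) (ZP q₂ j) (E₂ j) (F₂ j)) ∧
      (∀ γ, (∀ j, sp (l (τ₁ j)) (N j + 1) (q₁ j γ) = 1) → γ = 1) ∧
      (∀ γ, (∀ j, sp (l (τ₂ j)) (N j + 1) (q₂ j γ) = 1) → γ = 1) ∧
      (∀ C : ℝ, {γ : Γ | ∀ j, nm (q₁ j γ) ≤ C}.Finite) ∧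
      (∀ C : ℝ, {γ : Γ | ∀ j, nm (q₂ j γ) ≤ C}.Finite)

section inst

variable {J : Type} [DecidableEq J] (k : J → Type) [∀ j, NontriviallyNormedField (k j)]
  (N : J → ℕ)

/-- `∏ PGL_(N j + 1)(k j)` -/
abbrev EG : Type := ∀ j, PG (k j) (N j + 1)

/-- `SL_(N j + 1)(k j) → ∏ PGL_(N i + 1)(k i)` -/
noncomputable def iG (j : J) : GG (k j) (N j) →* EG k N :=
  (MonoidHom.mulSingle (fun i => PG (k i) (N i + 1)) j).comp (sp (k j) (N j + 1))

/-- the action on the points of the factor `j` -/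
noncomputable def aG (j : J) : EG k N →* PG (k j) (N j + 1) :=
  (MonoidHom.id (PG (k j) (N j + 1))).comp
    (Pi.evalMonoidHom (fun i => PG (k i) (N i + 1)) j)

/-- the action on the hyperplanes of the factor `j` -/
noncomputable def aG' (j : J) : EG k N →* PG (k j) (N j + 1) :=
  ((tauP (k j) (N j + 1)).comp (MonoidHom.id (PG (k j) (N j + 1)))).comp
    (Pi.evalMonoidHom (fun i => PG (k i) (N i + 1)) j)

theorem iG_ne {i j : J} (hij : i ≠ j) (h : GG (k i) (N i)) : iG k N i h j = 1 := by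
  change (MonoidHom.mulSingle (fun i => PG (k i) (N i + 1)) i (sp (k i) (N i + 1) h)) j = 1
  rw [MonoidHom.mulSingle_apply]
  exact Pi.mulSingle_eq_of_ne hij.symm _

theorem admP_PG [∀ j, ProperSpace (k j)] (hk : ∀ j, H933.LocK (k j)) (hN : ∀ j, 2 ≤ N j) :
    AdmP (iG k N) (aG k N) (aG' k N) where
  adm j := adm_pi (fun _ => inferInstance) j (adm_pgl (hk j) (hN j))
  triv i j hij h x := by
    have e : aG k N j (iG k N i h) = 1 := by
      change iG k N i h j = 1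
      exact iG_ne k N hij h
    rw [e, one_smul]
  triv' i j hij h x := by
    have e : aG' k N j (iG k N i h) = 1 := by
      change tauP (k j) (N j + 1) (iG k N i h j) = 1
      rw [iG_ne k N hij, map_one]
    rw [e, one_smul]

end inst

end Vale.Agent.P092.SX
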