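import Vale.Agent.P092.H943.SX2
import Vale.Agent.P092.SNP.Main

/-!
P092, TEAM N, two fields (helper943): one leg of a product in the letters of `SX`. Source fields
`kS j`, target fields `k j` (the coordinate `τ j`, possibly over a bigger field).
-/

set_option linter.all false

open scoped InnerProductSpace ENNReal LinearAlgebra.Projectivization ZeroAtInfty
open Filter Topology ContinuousLinearMap MeasureTheory TopologicalSpace Matrix

namespace Vale.Agent.P092.SX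

open Vale.Agent.P092.SN (CY CG inc NInc bw un nm NW Att act PH UD NWA actG fp fh Prv Adm TVE qP)
open Vale.Agent.P092.SNP (AdmP ZP)
open Vale.Agent.P092.RC (Cm TRN Moore GG PG YY y0 ct)
open Vale.Agent.P092.H100.Gr (Gr)
open Vale.Agent.P092.H35 (sp mkP)
open Vale.Agent.P092.H375.X2 (sgm sgm_src sgm_mk)
open Vale.Agent.P092.H644.Gr3
open Vale.Agent.P092.H943 (FLeg)

section one

variable {kS k : Type} [NontriviallyNormedField kS] [NontriviallyNormedField k] {N : ℕ}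

/-- the image of a collineation under a homomorphism of fields -/
theorem exists_pg (σ : kS →+* k) (g : PG kS (N + 1)) :
    ∃ x : PG k (N + 1), ∀ b : YY kS N, x • sgm σ (N + 1) b = sgm σ (N + 1) (g • b) := by
  obtain ⟨A, rfl⟩ := QuotientGroup.mk_surjective g
  refine ⟨QuotientGroup.mk (Matrix.GeneralLinearGroup.map σ A), fun b => ?_⟩
  induction b using Projectivization.ind with
  | h v hv =>
    rw [H789.mk_smul, H789.mk_smul, Projectivization.smul_mk, sgm_mk, sgm_mk,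
      Projectivization.smul_mk]
    congr 1
    funext i
    change ((Matrix.GeneralLinearGroup.map σ A).1 *ᵥ fun i => σ (v i)) i = σ ((A.1 *ᵥ v) i)
    rw [RingHom.map_mulVec]
    rfl

variable [ProperSpace kS] [ProperSpace k] {E Γ K : Type} [Group E]
  [TopologicalSpace E] [Group Γ] [NormedAddCommGroup K] [InnerProductSpace ℂ K] [CompleteSpace K]

/-- the points generate -/
theorem clsN_gen {a : E →* PG kS (N + 1)} {π : E →* (K →L[ℂ] K)} {lam : Γ →* (K →L[ℂ] K)}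
    {W : Set (K →L[ℂ] K)} {q : Γ → GG k N} {Ec : YY kS N → (CY k N →⋆ₐ[ℂ] (K →L[ℂ] K))}
    {σ : kS →+* k} {Q : C₀(PG k (N + 1), ℂ) →⋆ₙₐ[ℂ] (K →L[ℂ] K)} (h : ClsN a π lam W q Ec σ Q)
    {T : K →L[ℂ] K} (hT : ∀ b f, Commute T (Ec b f)) (ψ : C₀(PG k (N + 1), ℂ)) :
    Commute T (Q ψ) :=
  H715.Gen.comm_abs H789.isOpenEmbedding_cmap h.nd (E := fun i => Ec (H789.src kS N i))
    (fun i f ψ ψ' hψ => h.mulE (H789.src kS N i) f ψ ψ' fun x => by
      rw [sgm_src]; exact hψ x) (fun i f => hT _ f) ψ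

theorem fleg_of {a : E →* PG kS (N + 1)} {π : E →* (K →L[ℂ] K)} {lam : Γ →* (K →L[ℂ] K)}
    {W : Set (K →L[ℂ] K)} {q : Γ → GG k N} {Ec : YY kS N → (CY k N →⋆ₐ[ℂ] (K →L[ℂ] K))}
    {σ : kS →+* k} {Q : C₀(PG k (N + 1), ℂ) →⋆ₙₐ[ℂ] (K →L[ℂ] K)} (hq : PH q)
    (h : ClsN a π lam W q Ec σ Q) : FLeg π lam W (qP q hq) Q where
  nd := h.nd
  cm := h.cm
  cov γ ψ ψ' hψ := h.cov γ ψ ψ' hψ
  pcov g := by
    obtain ⟨x, hx⟩ := exists_pg σ (a g)
    exact ⟨x, fun ψ ψ' hψ => h.pcov g x hx ψ ψ' hψ⟩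

end one

section leg

variable {J : Type} {kS k : J → Type} [∀ j, NontriviallyNormedField (kS j)]
  [∀ j, ProperSpace (kS j)] [∀ j, MeasurableSpace (kS j)] {μ : ∀ j, Measure (kS j)}
  [∀ j, NontriviallyNormedField (k j)] [∀ j, ProperSpace (k j)] {N : J → ℕ} {E Γ K : Type}
  [Group E] [TopologicalSpace E] [Group Γ] [NormedAddCommGroup K] [InnerProductSpace ℂ K]
  [CompleteSpace K]

/-- **one leg of a product**: the classical calculi of the factors, commuting for different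
factors -/
theorem legP {w : ∀ j, (kS j)ˣ} {ι : ∀ j, GG (kS j) (N j) →* E}
    {a a' : ∀ j, E →* PG (kS j) (N j + 1)}
    {π : E →* (K →L[ℂ] K)} {lam : Γ →* (K →L[ℂ] K)} {W : Set (K →L[ℂ] K)} {Ω : K}
    {m : Set Γ → (K →L[ℂ] K)} {q : ∀ j, Γ → GG (k j) (N j)}
    {Ec F : ∀ j, YY (kS j) (N j) → (CY (k j) (N j) →⋆ₐ[ℂ] (K →L[ℂ] K))} (hA : AdmP ι a a')
    (hL : ∀ j, LegN (μ j) (w j) (ι j) (a j) (a' j) π lam W Ω m (q j) (ZP q j) (Ec j) (F j))
    (h1 : ∀ j, LegComm (kS j) (k j) (μ j)) (h4 : ∀ j, ClsStmt (kS j) (k j) (μ j))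
    (hX : ∀ i j, i ≠ j → X12Stmt (kS i) (k i) (k j) (μ i)) :
    ∃ (σ : ∀ j, kS j →+* k j) (Q : ∀ j, C₀(PG (k j) (N j + 1), ℂ) →⋆ₙₐ[ℂ] (K →L[ℂ] K)),
      (∀ j, ClsN (a j) π lam W (q j) (Ec j) (σ j) (Q j)) ∧
      (∀ i j, i ≠ j → ∀ ψ φ, Commute (Q i ψ) (Q j φ)) := by
  choose G hG hK using fun j => h1 j (w j) (ι j) (a j) (a' j) π lam W Ω m (q j) (ZP q j) (Ec j)
    (F j) (hL j)
  choose σ Q hQ using fun j => h4 j (w j) (ι j) (a j) (a' j) π lam W Ω m (q j) (ZP q j) (Ec j)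
    (F j) (G j) (hL j) (hG j) (hK j)
  refine ⟨σ, Q, hQ, fun i j hij ψ φ => ?_⟩
  refine clsN_gen (hQ j) (fun y f => ?_) φ
  refine (clsN_gen (hQ i) (fun c u => ?_) ψ).symm
  refine hX i j hij (w i) (ι i) (a i) (a' i) π lam W Ω m (q i) (ZP q i) (Ec i) (F i)
    (G i) (q j) (Ec j y) (hL i) (hG i) (hK i) (hL j).ph (fun R => ⟨R, fun γ hγ => ?_⟩)
    (fun g => (hL j).e.cm y g) (fun h g => ?_) (fun γ g => (hL j).e.cov γ y g) c u f
  · exact hγ j hij.symm
  · have e := (hL j).e.pcov (ι i h) y g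
    rw [hA.triv i j hij h y] at e
    have e2 : π (ι i h)⁻¹ * π (ι i h) = 1 := by rw [← map_mul, inv_mul_cancel, map_one]
    calc π (ι i h) * Ec j y g = π (ι i h) * Ec j y g * (π (ι i h)⁻¹ * π (ι i h)) := by
          rw [e2, mul_one]
      _ = π (ι i h) * Ec j y g * π (ι i h)⁻¹ * π (ι i h) := by simp only [mul_assoc]
      _ = _ := by rw [e]

end leg

end Vale.Agent.P092.SX
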