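import Vale.Agent.P092.SX.Defs

/-!
P092, TEAM N, two fields (helper232): the joints. Source field `kS`, target field `k`. Every `Stmt`
is a literal `Prop`.
-/

set_option linter.all false

open scoped InnerProductSpace ENNReal LinearAlgebra.Projectivization ZeroAtInfty
open Filter Topology ContinuousLinearMap MeasureTheory TopologicalSpace

namespace Vale.Agent.P092.SX

open Vale.Agent.P092.SN (CY CG inc NInc bw un nm NW Att act PH UD NWA actG fp fh Prv Adm TVE)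
open Vale.Agent.P092.RC (Cm TRN Moore GG PG YY y0 ct)
open Vale.Agent.P092.H100.Gr (Gr)
open Vale.Agent.P092.H644.Gr3 (p1 hyp)

section w0

variable {kS k : Type} [NontriviallyNormedField kS] [NontriviallyNormedField k] {N : ℕ} {K : Type}
  [NormedAddCommGroup K] [InnerProductSpace ℂ K] [CompleteSpace K]

/-- the words in the hyperplane calculi of the hyperplanes through the point `c` -/
noncomputable def WA (F : YY kS N → (CY k N →⋆ₐ[ℂ] (K →L[ℂ] K))) (c : YY kS N) :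
    StarSubalgebra ℂ (K →L[ℂ] K) :=
  StarAlgebra.adjoin ℂ {T | ∃ M f, inc c M ∧ T = F M f}

/-- (W0), the word lemma -/
def W0 (Ec F : YY kS N → (CY k N →⋆ₐ[ℂ] (K →L[ℂ] K))) : Prop :=
  ∀ c : YY kS N, ∀ T ∈ WA F c, ∀ M, inc c M → ∀ u h : CY k N,
    NInc (tsupport u) (tsupport h) → Ec c u * T * F M h = 0

end w0

section stmts

variable (kS k : Type) [NontriviallyNormedField kS] [ProperSpace kS] [NontriviallyNormedField k]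
  [ProperSpace k]

/-- [N-W0] -/
def W0Stmt [MeasurableSpace kS] (μ : Measure kS) : Prop :=
  ∀ {N : ℕ} {E Γ K : Type} [Group E] [TopologicalSpace E] [Group Γ] [NormedAddCommGroup K]
    [InnerProductSpace ℂ K] [CompleteSpace K] (w : kSˣ) (ι : GG kS N →* E)
    (a a' : E →* PG kS (N + 1)) (π : E →* (K →L[ℂ] K)) (lam : Γ →* (K →L[ℂ] K))
    (W : Set (K →L[ℂ] K)) (Ω : K) (m : Set Γ → (K →L[ℂ] K)) (q : Γ → GG k N) (Z : ℝ → Set Γ)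
    (Ec F : YY kS N → (CY k N →⋆ₐ[ℂ] (K →L[ℂ] K))),
    LegN μ w ι a a' π lam W Ω m q Z Ec F → W0 Ec F

/-- [N-RKI] -/
def RkIStmt [MeasurableSpace kS] (μ : Measure kS) : Prop :=
  ∀ {N : ℕ} {E Γ K : Type} [Group E] [TopologicalSpace E] [Group Γ] [NormedAddCommGroup K]
    [InnerProductSpace ℂ K] [CompleteSpace K] (w : kSˣ) (ι : GG kS N →* E)
    (a a' : E →* PG kS (N + 1)) (π : E →* (K →L[ℂ] K)) (lam : Γ →* (K →L[ℂ] K))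
    (W : Set (K →L[ℂ] K)) (Ω : K) (m : Set Γ → (K →L[ℂ] K)) (q : Γ → GG k N) (Z : ℝ → Set Γ)
    (Ec F : YY kS N → (CY k N →⋆ₐ[ℂ] (K →L[ℂ] K))),
    LegN μ w ι a a' π lam W Ω m q Z Ec F → W0 Ec F →
    ∃ G : ∀ j, Gr kS (Fin (N + 1)) j → (CG k N j →⋆ₐ[ℂ] (K →L[ℂ] K)), CalN ι π lam W q Ec F G

/-- [N-KL] -/
def KeyStmt [MeasurableSpace kS] (μ : Measure kS) : Prop :=
  ∀ {N : ℕ} {E Γ K : Type} [Group E] [TopologicalSpace E] [Group Γ] [NormedAddCommGroup K]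
    [InnerProductSpace ℂ K] [CompleteSpace K] (w : kSˣ) (ι : GG kS N →* E)
    (a a' : E →* PG kS (N + 1)) (π : E →* (K →L[ℂ] K)) (lam : Γ →* (K →L[ℂ] K))
    (W : Set (K →L[ℂ] K)) (Ω : K) (m : Set Γ → (K →L[ℂ] K)) (q : Γ → GG k N) (Z : ℝ → Set Γ)
    (Ec F : YY kS N → (CY k N →⋆ₐ[ℂ] (K →L[ℂ] K)))
    (G : ∀ j, Gr kS (Fin (N + 1)) j → (CG k N j →⋆ₐ[ℂ] (K →L[ℂ] K))),
    LegN μ w ι a a' π lam W Ω m q Z Ec F → CalN ι π lam W q Ec F G → H218.NC.Key₁ G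

/-- in one leg everything commutes -/
def LegComm [MeasurableSpace kS] (μ : Measure kS) : Prop :=
  ∀ {N : ℕ} {E Γ K : Type} [Group E] [TopologicalSpace E] [Group Γ] [NormedAddCommGroup K]
    [InnerProductSpace ℂ K] [CompleteSpace K] (w : kSˣ) (ι : GG kS N →* E)
    (a a' : E →* PG kS (N + 1)) (π : E →* (K →L[ℂ] K)) (lam : Γ →* (K →L[ℂ] K))
    (W : Set (K →L[ℂ] K)) (Ω : K) (m : Set Γ → (K →L[ℂ] K)) (q : Γ → GG k N) (Z : ℝ → Set Γ)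
    (Ec F : YY kS N → (CY k N →⋆ₐ[ℂ] (K →L[ℂ] K))),
    LegN μ w ι a a' π lam W Ω m q Z Ec F →
    ∃ G : ∀ j, Gr kS (Fin (N + 1)) j → (CG k N j →⋆ₐ[ℂ] (K →L[ℂ] K)),
      CalN ι π lam W q Ec F G ∧ H218.NC.Key₁ G

/-- [N-CLS] -/
def ClsStmt [MeasurableSpace kS] (μ : Measure kS) : Prop :=
  ∀ {N : ℕ} {E Γ K : Type} [Group E] [TopologicalSpace E] [Group Γ] [NormedAddCommGroup K]
    [InnerProductSpace ℂ K] [CompleteSpace K] (w : kSˣ) (ι : GG kS N →* E)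
    (a a' : E →* PG kS (N + 1)) (π : E →* (K →L[ℂ] K)) (lam : Γ →* (K →L[ℂ] K))
    (W : Set (K →L[ℂ] K)) (Ω : K) (m : Set Γ → (K →L[ℂ] K)) (q : Γ → GG k N) (Z : ℝ → Set Γ)
    (Ec F : YY kS N → (CY k N →⋆ₐ[ℂ] (K →L[ℂ] K)))
    (G : ∀ j, Gr kS (Fin (N + 1)) j → (CG k N j →⋆ₐ[ℂ] (K →L[ℂ] K))),
    LegN μ w ι a a' π lam W Ω m q Z Ec F → CalN ι π lam W q Ec F G → H218.NC.Key₁ G →
    ∃ (σ : kS →+* k) (Q : C₀(PG k (N + 1), ℂ) →⋆ₙₐ[ℂ] (K →L[ℂ] K)), ClsN a π lam W q Ec σ Q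

/-- (X1): `q'` is another coordinate of the target (third field `k'`), bounded on `Z R`; `E'` its
calculus of one point -/
def X1Stmt (k' : Type) [NontriviallyNormedField k'] [ProperSpace k'] [MeasurableSpace kS]
    (μ : Measure kS) : Prop :=
  ∀ {N N' : ℕ} {E Γ K : Type} [Group E] [TopologicalSpace E] [Group Γ] [NormedAddCommGroup K]
    [InnerProductSpace ℂ K] [CompleteSpace K] (w : kSˣ) (ι : GG kS N →* E)
    (a a' : E →* PG kS (N + 1)) (π : E →* (K →L[ℂ] K)) (lam : Γ →* (K →L[ℂ] K))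
    (W : Set (K →L[ℂ] K)) (Ω : K) (m : Set Γ → (K →L[ℂ] K)) (q : Γ → GG k N) (Z : ℝ → Set Γ)
    (Ec F : YY kS N → (CY k N →⋆ₐ[ℂ] (K →L[ℂ] K))) (q' : Γ → GG k' N')
    (E' : CY k' N' →⋆ₐ[ℂ] (K →L[ℂ] K)),
    LegN μ w ι a a' π lam W Ω m q Z Ec F → PH q' →
    (∀ R, ∃ C, ∀ γ ∈ Z R, nm (q' γ) ≤ C) → (∀ f, Cm W (E' f)) →
    (∀ h f, π (ι h) * E' f = E' f * π (ι h)) →
    (∀ γ f, lam γ * E' f * lam γ⁻¹ = E' (act (q' γ) f)) →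
    ∀ c M, inc c M → ∀ (u h : CY k N) (f : CY k' N'), NInc (tsupport u) (tsupport h) →
      Ec c u * E' f * F M h = 0

/-- (X12): calculi of points of different factors commute -/
def X12Stmt (k' : Type) [NontriviallyNormedField k'] [ProperSpace k'] [MeasurableSpace kS]
    (μ : Measure kS) : Prop :=
  ∀ {N N' : ℕ} {E Γ K : Type} [Group E] [TopologicalSpace E] [Group Γ] [NormedAddCommGroup K]
    [InnerProductSpace ℂ K] [CompleteSpace K] (w : kSˣ) (ι : GG kS N →* E)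
    (a a' : E →* PG kS (N + 1)) (π : E →* (K →L[ℂ] K)) (lam : Γ →* (K →L[ℂ] K))
    (W : Set (K →L[ℂ] K)) (Ω : K) (m : Set Γ → (K →L[ℂ] K)) (q : Γ → GG k N) (Z : ℝ → Set Γ)
    (Ec F : YY kS N → (CY k N →⋆ₐ[ℂ] (K →L[ℂ] K)))
    (G : ∀ j, Gr kS (Fin (N + 1)) j → (CG k N j →⋆ₐ[ℂ] (K →L[ℂ] K))) (q' : Γ → GG k' N')
    (E' : CY k' N' →⋆ₐ[ℂ] (K →L[ℂ] K)),
    LegN μ w ι a a' π lam W Ω m q Z Ec F → CalN ι π lam W q Ec F G → H218.NC.Key₁ G → PH q' →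
    (∀ R, ∃ C, ∀ γ ∈ Z R, nm (q' γ) ≤ C) → (∀ f, Cm W (E' f)) →
    (∀ h f, π (ι h) * E' f = E' f * π (ι h)) →
    (∀ γ f, lam γ * E' f * lam γ⁻¹ = E' (act (q' γ) f)) →
    ∀ c (u : CY k N) (f : CY k' N'), Commute (E' f) (Ec c u)

end stmts

/-- [N-XC] the two legs commute (one factor): source field `kS`, target fields `k₁`, `k₂` -/
def XCStmt (kS k₁ k₂ : Type) [NontriviallyNormedField kS] [ProperSpace kS]
    [NontriviallyNormedField k₁] [ProperSpace k₁] [NontriviallyNormedField k₂]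
    [ProperSpace k₂] : Prop :=
  ∀ {N : ℕ} {E Γ K : Type} [Group E] [TopologicalSpace E] [Group Γ] [Countable Γ]
    [NormedAddCommGroup K] [InnerProductSpace ℂ K] [CompleteSpace K] (ι : GG kS N →* E)
    (a a' : E →* PG kS (N + 1)) (π : E →* (K →L[ℂ] K)) (lam₁ lam₂ : Γ →* (K →L[ℂ] K))
    (X : Set (K →L[ℂ] K)) (Ω : K) (q₁ : Γ → GG k₁ N) (q₂ : Γ → GG k₂ N)
    (E₁ : YY kS N → (CY k₁ N →⋆ₐ[ℂ] (K →L[ℂ] K))) (E₂ : YY kS N → (CY k₂ N →⋆ₐ[ℂ] (K →L[ℂ] K)))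
    (σ₁ : kS →+* k₁) (σ₂ : kS →+* k₂) (Q₁ : C₀(PG k₁ (N + 1), ℂ) →⋆ₙₐ[ℂ] (K →L[ℂ] K))
    (Q₂ : C₀(PG k₂ (N + 1), ℂ) →⋆ₙₐ[ℂ] (K →L[ℂ] K)),
    Adm ι a a' → RC.PicX π lam₁ (X ∪ Set.range lam₂) Ω →
    RC.PicX π lam₂ (X ∪ Set.range lam₁) Ω → (∀ x ∈ X, adjoint x ∈ X) →
    (∀ x ∈ X, ∀ g, π g * x * π g⁻¹ ∈ X) → TVE π lam₁ (X ∪ Set.range lam₂) Ω →
    TVE π lam₂ (X ∪ Set.range lam₁) Ω → PH q₁ → PH q₂ →
    (∀ C : ℝ, {γ : Γ | nm (q₁ γ) ≤ C}.Finite) → (∀ C : ℝ, {γ : Γ | nm (q₂ γ) ≤ C}.Finite) →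
    ClsN a π lam₁ (X ∪ Set.range lam₂) q₁ E₁ σ₁ Q₁ →
    ClsN a π lam₂ (X ∪ Set.range lam₁) q₂ E₂ σ₂ Q₂ →
    ∀ ψ φ, Commute (Q₁ ψ) (Q₂ φ)

theorem legComm_of {kS k : Type} [NontriviallyNormedField kS] [ProperSpace kS]
    [NontriviallyNormedField k] [ProperSpace k] [MeasurableSpace kS]
    {μ : Measure kS} (h1 : W0Stmt kS k μ) (h2 : RkIStmt kS k μ) (h3 : KeyStmt kS k μ) :
    LegComm kS k μ := by
  intro N E Γ K _ _ _ _ _ _ w ι a a' π lam W Ω m q Z Ec F h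
  obtain ⟨G, hG⟩ := h2 w ι a a' π lam W Ω m q Z Ec F h (h1 w ι a a' π lam W Ω m q Z Ec F h)
  exact ⟨G, hG, h3 w ι a a' π lam W Ω m q Z Ec F G h hG⟩

end Vale.Agent.P092.SX
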