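import Vale.Agent.P092.SX.PMain
import Vale.Agent.P092.H325.SXs

/-!
P092, TEAM N, two fields (helper943): the assembly for products with mixed fields, `t = 1`.
-/

set_option linter.all false

open scoped InnerProductSpace ENNReal LinearAlgebra.Projectivization ZeroAtInfty
open Filter Topology ContinuousLinearMap MeasureTheory TopologicalSpace

namespace Vale.Agent.P092.SX

open Vale.Agent.P092.SN (CY CG inc NInc bw un nm NW Att act PH UD NWA actG fp fh Prv Adm TVE qP)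
open Vale.Agent.P092.SNP (AdmP ZP injP discP tve₁ tve₂)
open Vale.Agent.P092.RC (Cm TRN Moore GG PG YY y0 ct)
open Vale.Agent.P092.H100.Gr (Gr)
open Vale.Agent.P092.H35 (sp mkP)
open Vale.Agent.P092.H943 (FLeg joint_pi mono_of_prod)

section pic

variable {G Γ K : Type} [Group G] [TopologicalSpace G] [Group Γ] [NormedAddCommGroup K]
  [InnerProductSpace ℂ K] [CompleteSpace K]

/-- the weak picture from the picture -/
theorem picX_of {π : G →* (K →L[ℂ] K)} {lam : Γ →* (K →L[ℂ] K)} {W : Set (K →L[ℂ] K)} {Ω : K}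
    (h : RC.Pic π lam W Ω) : RC.PicX π lam W Ω where
  adjP := h.adjP
  contP := h.contP
  adjL := h.adjL
  comm := h.comm
  Wadj := h.Wadj
  WP := h.WP
  WL := h.WL
  nΩ := h.nΩ
  erg := h.erg
  tr_adj := h.tr_adj
  tr_conj := h.tr_conj
  tr_zero := h.tr_zero
  hs_erg := h.hs_erg
  inv := ⟨Ω, h.nΩ, h.inv⟩

end pic

section main

open Vale.Agent.P092.SR Vale.Agent.P092.H160
open Vale.Agent.P092.RC (KK pic lam₁ lam₂ XX Om)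

variable {J : Type} [Fintype J] {k l₁ l₂ : J → Type} [∀ j, NontriviallyNormedField (k j)]
  [∀ j, ProperSpace (k j)] [∀ j, MeasurableSpace (k j)] [∀ j, BorelSpace (k j)]
  [∀ j, NontriviallyNormedField (l₁ j)] [∀ j, ProperSpace (l₁ j)]
  [∀ j, NontriviallyNormedField (l₂ j)] [∀ j, ProperSpace (l₂ j)]
  {μ : ∀ j, Measure (k j)} [∀ j, IsFiniteMeasureOnCompacts (μ j)] [∀ j, (μ j).IsOpenPosMeasure]
  {N : J → ℕ} {E : Type} [Group E] [TopologicalSpace E] [IsTopologicalGroup E]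
  [LocallyCompactSpace E] [SecondCountableTopology E] [T2Space E] [NoncompactSpace E]
  [MeasurableSpace E] [BorelSpace E] {Γ : Subgroup E} [DiscreteTopology Γ] [Countable Γ]
  [MeasurableSpace (E ⧸ Γ)] [BorelSpace (E ⧸ Γ)] {ν : Measure (E ⧸ Γ)} [IsProbabilityMeasure ν]
  (hν : ∀ g : E, ν.map (fun x => g • x) = ν) {Λ : Type} [Group Λ] [Countable Λ]
  {α : Γ →* (Ell2 Λ →L[ℂ] Ell2 Λ)} (hα : Frame α)

/-- **Two legs over a product give the monomial vector.** -/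
theorem mono_of_legs (hΛ : ∀ g : Λ, g ≠ 1 → Set.Infinite {y : Λ | ∃ h, y = h * g * h⁻¹})
    {ι : ∀ j, GG (k j) (N j) →* E} {a a' : ∀ j, E →* PG (k j) (N j + 1)} (hA : AdmP ι a a')
    (hk₁ : ∀ j, H933.LocK (l₁ j)) (hk₂ : ∀ j, H933.LocK (l₂ j))
    (g1 : ∀ j, LegComm (k j) (l₁ j) (μ j)) (g2 : ∀ j, LegComm (k j) (l₂ j) (μ j))
    (c1 : ∀ j, ClsStmt (k j) (l₁ j) (μ j)) (c2 : ∀ j, ClsStmt (k j) (l₂ j) (μ j))
    {w₁ w₂ : ∀ j, (k j)ˣ} {m₁ m₂ : Set Γ → (KK ν Λ →L[ℂ] KK ν Λ)}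
    {q₁ : ∀ j, Γ → GG (l₁ j) (N j)} {q₂ : ∀ j, Γ → GG (l₂ j) (N j)}
    {E₁ F₁ : ∀ j, YY (k j) (N j) → (CY (l₁ j) (N j) →⋆ₐ[ℂ] (KK ν Λ →L[ℂ] KK ν Λ))}
    {E₂ F₂ : ∀ j, YY (k j) (N j) → (CY (l₂ j) (N j) →⋆ₐ[ℂ] (KK ν Λ →L[ℂ] KK ν Λ))}
    (l1 : ∀ j, LegN (μ j) (w₁ j) (ι j) (a j) (a' j) (pic hν hα) (lam₁ ν α)
      (XX ν Λ ∪ Set.range (lam₂ ν α)) (Om ν Λ) m₁ (q₁ j) (ZP q₁ j) (E₁ j) (F₁ j))
    (l2 : ∀ j, LegN (μ j) (w₂ j) (ι j) (a j) (a' j) (pic hν hα) (lam₂ ν α)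
      (XX ν Λ ∪ Set.range (lam₁ ν α)) (Om ν Λ) m₂ (q₂ j) (ZP q₂ j) (E₂ j) (F₂ j))
    (i1 : ∀ γ, (∀ j, sp (l₁ j) (N j + 1) (q₁ j γ) = 1) → γ = 1)
    (i2 : ∀ γ, (∀ j, sp (l₂ j) (N j + 1) (q₂ j γ) = 1) → γ = 1)
    (d1 : ∀ C : ℝ, {γ : Γ | ∀ j, nm (q₁ j γ) ≤ C}.Finite)
    (d2 : ∀ C : ℝ, {γ : Γ | ∀ j, nm (q₂ j γ) ≤ C}.Finite) : RC.MonoV α := by
  have p2 := H34.PicC.pic2 hν hα hΛ
  letI : ∀ j, MeasurableSpace (l₁ j) := fun j => borel _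
  letI : ∀ j, MeasurableSpace (l₂ j) := fun j => borel _
  obtain ⟨σ₁, Q₁, e1, k1⟩ := legP hA l1 g1 c1 fun i j _ => x12Stmt (hk₁ j)
  obtain ⟨σ₂, Q₂, e2, k2⟩ := legP hA l2 g2 c2 fun i j _ => x12Stmt (hk₂ j)
  refine mono_of_prod hν hα (fun j => fleg_of (l1 j).ph (e1 j))
    (fun j => fleg_of (l2 j).ph (e2 j)) k1 k2 (injP _ i1) (injP _ i2) (discP _ d1) (discP _ d2) ?_
  intro i j ψ φ
  exact H325.SX.pXcTN (ρ := fun j => MonoidHom.id (GG (k j) (N j))) (ι := ι) (X := XX ν Λ)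
    (Ω := Om ν Λ) (fun j => H325.SX.symT_id) (fun j h b => hA.adm j |>.comp h b)
    (fun j' j hj h b => hA.triv j' j hj h b) (picX_of p2.leg₁) (tve₁ hν hα) p2.leg₂.adjL
    (fun j => (l1 j).ph) (fun j => (l2 j).ph) d1 e1 k1 e2 k2 i j ψ φ

end main

end Vale.Agent.P092.SX
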