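import Vale.Agent.P092.SX.PB1
import Vale.Agent.P092.SX.Main1

/-!
P092, TEAM N, two fields (helper943): `CoreE` for products with mixed fields, and for
`E = ∏ PGL_(N j + 1)(k j)`, from the joints (`t = 1`).
-/

set_option linter.all false

open scoped InnerProductSpace ENNReal LinearAlgebra.Projectivization ZeroAtInfty
open Filter Topology ContinuousLinearMap MeasureTheory TopologicalSpace

namespace Vale.Agent.P092.SX

open Vale.Agent.P092.SN (CY CG inc NInc bw un nm NW Att act PH UD NWA actG fp fh Prv Adm TVE qP)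
open Vale.Agent.P092.SNP (AdmP ZP noncompact_of_adm coreE_of_subsingleton)
open Vale.Agent.P092.RC (Cm TRN Moore GG PG YY y0 ct)
open Vale.Agent.P092.H35 (sp mkP)

section core

open Vale.Agent.P092.SR Vale.Agent.P092.H160

variable {J : Type} [Fintype J] {k l : J → Type} [∀ j, NontriviallyNormedField (k j)]
  [∀ j, ProperSpace (k j)] [∀ j, MeasurableSpace (k j)] [∀ j, BorelSpace (k j)]
  [∀ j, NontriviallyNormedField (l j)] [∀ j, ProperSpace (l j)]
  {μ : ∀ j, Measure (k j)} [∀ j, IsFiniteMeasureOnCompacts (μ j)] [∀ j, (μ j).IsOpenPosMeasure]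
  {N : J → ℕ} {E : Type} [Group E] [TopologicalSpace E] [IsTopologicalGroup E]
  [LocallyCompactSpace E] [SecondCountableTopology E] [T2Space E]

/-- **The core statement for a product with mixed fields**, from the joints. -/
theorem coreP_of [NoncompactSpace E] {ι : ∀ j, GG (k j) (N j) →* E}
    {a a' : ∀ j, E →* PG (k j) (N j + 1)} (hA : AdmP ι a a') (hl : ∀ j, H933.LocK (l j))
    (h1 : ∀ i j, LegComm (k i) (l j) (μ i)) (h4 : ∀ i j, ClsStmt (k i) (l j) (μ i))
    (hEx : ExPStmt k l μ N ι a a') : SN.CoreE E := by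
  intro Γ hΓ hicc Λ _ _ hΛ α hα
  letI : MeasurableSpace E := borel _
  haveI : BorelSpace E := ⟨rfl⟩
  haveI hd : DiscreteTopology Γ := hΓ.disc
  haveI hc : Countable Γ := H790.countable_of_discrete (E := E) Γ
  letI : MeasurableSpace (E ⧸ Γ) := borel _
  haveI : BorelSpace (E ⧸ Γ) := ⟨rfl⟩
  obtain ⟨ν, hP', hν⟩ := H515.IsLattice.exists_prob (Λ := Γ) ⟨hΓ.disc, hΓ.covol⟩
  obtain ⟨w, m₁, m₂, τ₁, τ₂, q₁, q₂, E₁, F₁, E₂, F₂, l1, l2, i1, i2, d1, d2⟩ :=
    hEx (Γ := Γ) hν hΓ hicc hΛ hα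
  exact mono_of_legs (l₁ := fun j => l (τ₁ j)) (l₂ := fun j => l (τ₂ j)) hν hα hΛ hA
    (fun j => hl (τ₁ j)) (fun j => hl (τ₂ j)) (fun j => h1 j (τ₁ j)) (fun j => h1 j (τ₂ j))
    (fun j => h4 j (τ₁ j)) (fun j => h4 j (τ₂ j)) l1 l2 i1 i2 d1 d2

end core

/-- **[P-EX]** for `E = ∏ PGL_(N j + 1)(k j)`, all local fields -/
def ExPG : Prop :=
  ∀ {J : Type} [Fintype J] [DecidableEq J] (k : J → Type) [∀ j, NontriviallyNormedField (k j)]
    [∀ j, ProperSpace (k j)] [∀ j, MeasurableSpace (k j)] [∀ j, BorelSpace (k j)]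
    (μ : ∀ j, Measure (k j)) [∀ j, (μ j).IsAddHaarMeasure] (N : J → ℕ),
    (∀ j, H933.LocK (k j)) → (∀ j, 2 ≤ N j) →
    ∃ (l : J → Type) (_ : ∀ j, NontriviallyNormedField (l j)) (_ : ∀ j, ProperSpace (l j)),
      (∀ j, H933.LocK (l j)) ∧ ExPStmt k l μ N (iG k N) (aG k N) (aG' k N)

/-- the joints of `SX` for one leg: source any local field, target any local field -/
def Joints : Prop :=
  ∀ (k l : Type) [NontriviallyNormedField k] [ProperSpace k] [MeasurableSpace k] [BorelSpace k]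
    [NontriviallyNormedField l] [ProperSpace l] (μ : Measure k) [μ.IsAddHaarMeasure],
    H933.LocK k → H933.LocK l → LegComm k l μ ∧ ClsStmt k l μ

/-- **the core statement for `∏ PGL_(N j + 1)(k j)`**, mixed fields -/
theorem coreE_PG (hJ : Joints) (hEx : ExPG) {J : Type} [Fintype J] (k : J → Type)
    [∀ j, NontriviallyNormedField (k j)] [∀ j, ProperSpace (k j)] (N : J → ℕ)
    (hk : ∀ j, H933.LocK (k j)) (hN : ∀ j, 2 ≤ N j) : SN.CoreE (∀ j, PG (k j) (N j + 1)) := by
  classical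
  rcases isEmpty_or_nonempty J with hJ0 | ⟨⟨j₀⟩⟩
  · haveI : Subsingleton (∀ j, PG (k j) (N j + 1)) := ⟨fun x y => funext fun j => hJ0.elim j⟩
    exact coreE_of_subsingleton _
  · letI : ∀ j, MeasurableSpace (k j) := fun j => borel _
    haveI : ∀ j, BorelSpace (k j) := fun j => ⟨rfl⟩
    have hA := admP_PG k N hk hN
    haveI : NoncompactSpace (∀ j, PG (k j) (N j + 1)) := noncompact_of_adm (hA.adm j₀)
    obtain ⟨l, _, _, hl, h⟩ := hEx k (fun j => (Measure.addHaar : Measure (k j))) N hk hN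
    exact coreP_of hA hl (fun i j => (hJ (k i) (l j) _ (hk i) (hl j)).1)
      (fun i j => (hJ (k i) (l j) _ (hk i) (hl j)).2) h

end Vale.Agent.P092.SX
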