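import Vale.Agent.P092.SX.MainT
import Vale.Agent.P092.SX.Fin1
import Vale.Agent.P092.H188.LatPU
import Vale.Agent.P092.UN.Eqv

/-!
P092, TEAM N, two fields (helper157): the second leg from the first one, the source group
`∏ PGL_(N j + 1)(k j)`, and the final statement for the class `UN.LatticeP`, all amplifications, from
the joints.
-/

set_option linter.all false

open scoped InnerProductSpace ENNReal LinearAlgebra.Projectivization ZeroAtInfty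
open Filter Topology ContinuousLinearMap MeasureTheory TopologicalSpace

namespace Vale.Agent.P092.SX

open Vale.Agent.P092.SN (CY CG inc NInc bw un nm NW Att act PH UD NWA actG fp fh Prv Adm TVE qP)
open Vale.Agent.P092.SNP (AdmP ZP noncompact_of_adm)
open Vale.Agent.P092.SNT (CoreAllE superAll_of_coreAllE)
open Vale.Agent.P092.SNPT (coreAllE_of_subsingleton)
open Vale.Agent.P092.RC (Cm TRN Moore GG PG YY y0 ct adjV3)
open Vale.Agent.P092.H35 (sp mkP)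
open Vale.Agent.P092.H85 (cdat)

section gen

variable {J : Type} {k l : J → Type} [∀ j, NontriviallyNormedField (k j)] [∀ j, ProperSpace (k j)]
  [∀ j, NontriviallyNormedField (l j)] [∀ j, ProperSpace (l j)]
  [∀ j, MeasurableSpace (k j)] {μ : ∀ j, Measure (k j)} {N : J → ℕ} {E Γ K : Type} [Group E]
  [TopologicalSpace E] [Group Γ] [NormedAddCommGroup K] [InnerProductSpace ℂ K] [CompleteSpace K]
  {ι : ∀ j, GG (k j) (N j) →* E} {a a' : ∀ j, E →* PG (k j) (N j + 1)} {π : E →* (K →L[ℂ] K)}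
  {lam₁ lam₂ : Γ →* (K →L[ℂ] K)} {W₁ W₂ : Set (K →L[ℂ] K)}

theorem exP_of_half
    (hf : ∀ (κ : Type) [Fintype κ] (Ω : κ → K) (m : Set Γ → (K →L[ℂ] K)), ∃ (Ω' : κ → K)
      (m' : Set Γ → (K →L[ℂ] K)), ∀ (j i : J) (w : (k j)ˣ) (q : Γ → GG (l i) (N j))
      (Z : ℝ → Set Γ) (Ec F : YY (k j) (N j) → (CY (l i) (N j) →⋆ₐ[ℂ] (K →L[ℂ] K))),
      LegNF (μ j) w (ι j) (a j) (a' j) π lam₁ W₁ Ω m q Z Ec F →
      ∃ Ec' F' : YY (k j) (N j) → (CY (l i) (N j) →⋆ₐ[ℂ] (K →L[ℂ] K)),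
        LegNF (μ j) w (ι j) (a j) (a' j) π lam₂ W₂ Ω' m' q Z Ec' F')
    (h : ∃ (w : ∀ j, (k j)ˣ) (κ : Type) (_ : Fintype κ) (Ω : κ → K) (m : Set Γ → (K →L[ℂ] K))
      (τ : J → J) (q : ∀ j, Γ → GG (l (τ j)) (N j))
      (Ec F : ∀ j, YY (k j) (N j) → (CY (l (τ j)) (N j) →⋆ₐ[ℂ] (K →L[ℂ] K))),
      (∀ j, LegNF (μ j) (w j) (ι j) (a j) (a' j) π lam₁ W₁ Ω m (q j) (ZP q j) (Ec j) (F j)) ∧
      (∀ γ, (∀ j, sp (l (τ j)) (N j + 1) (q j γ) = 1) → γ = 1) ∧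
      (∀ C : ℝ, {γ : Γ | ∀ j, nm (q j γ) ≤ C}.Finite)) :
    ∃ (w : ∀ j, (k j)ˣ) (κ₁ κ₂ : Type) (_ : Fintype κ₁) (_ : Fintype κ₂) (Ω₁ : κ₁ → K)
      (Ω₂ : κ₂ → K) (m₁ m₂ : Set Γ → (K →L[ℂ] K)) (τ₁ τ₂ : J → J)
      (q₁ : ∀ j, Γ → GG (l (τ₁ j)) (N j)) (q₂ : ∀ j, Γ → GG (l (τ₂ j)) (N j))
      (E₁ F₁ : ∀ j, YY (k j) (N j) → (CY (l (τ₁ j)) (N j) →⋆ₐ[ℂ] (K →L[ℂ] K)))
      (E₂ F₂ : ∀ j, YY (k j) (N j) → (CY (l (τ₂ j)) (N j) →⋆ₐ[ℂ] (K →L[ℂ] K))),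
      (∀ j, LegNF (μ j) (w j) (ι j) (a j) (a' j) π lam₁ W₁ Ω₁ m₁ (q₁ j) (ZP q₁ j)
        (E₁ j) (F₁ j)) ∧
      (∀ j, LegNF (μ j) (w j) (ι j) (a j) (a' j) π lam₂ W₂ Ω₂ m₂ (q₂ j) (ZP q₂ j)
        (E₂ j) (F₂ j)) ∧
      (∀ γ, (∀ j, sp (l (τ₁ j)) (N j + 1) (q₁ j γ) = 1) → γ = 1) ∧
      (∀ γ, (∀ j, sp (l (τ₂ j)) (N j + 1) (q₂ j γ) = 1) → γ = 1) ∧
      (∀ C : ℝ, {γ : Γ | ∀ j, nm (q₁ j γ) ≤ C}.Finite) ∧
      (∀ C : ℝ, {γ : Γ | ∀ j, nm (q₂ j γ) ≤ C}.Finite) := by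
  obtain ⟨w, κ, iκ, Ω, m, τ, q, Ec, F, l1, h1, h2⟩ := h
  obtain ⟨Ω', m', h3⟩ := hf κ Ω m
  choose Ec' F' l2 using fun j => h3 j (τ j) (w j) (q j) (ZP q j) (Ec j) (F j) (l1 j)
  exact ⟨w, κ, κ, iκ, iκ, Ω, Ω', m, m', τ, τ, q, q, Ec, F, Ec', F', l1, l2, h1, h1, h2, h2⟩

end gen

section half

open Vale.Agent.P092.SR Vale.Agent.P092.H160 Vale.Agent.P092.H103 Vale.Agent.P092.H962
open Vale.Agent.P092.SDT (sT sT_sq sT_adj sT_V sT_A sT_B)
open Vale.Agent.P092.H515.St (IsLattice)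

/-- **[P-HALF-T]**, mixed fields: the first leg of the concrete picture over a product, all
amplifications. The family `Ω` is free; `q j` is the coordinate `τ j` of the target (dualised if
necessary) over the field `l (τ j)`. -/
def ExPHalfT {J : Type} [Fintype J] (k l : J → Type) [∀ j, NontriviallyNormedField (k j)]
    [∀ j, ProperSpace (k j)] [∀ j, MeasurableSpace (k j)] [∀ j, NontriviallyNormedField (l j)]
    [∀ j, ProperSpace (l j)] (μ : ∀ j, Measure (k j)) (N : J → ℕ)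
    {E : Type} [Group E] [TopologicalSpace E]
    [IsTopologicalGroup E] [LocallyCompactSpace E] [SecondCountableTopology E] [T2Space E]
    (ι : ∀ j, GG (k j) (N j) →* E) (a a' : ∀ j, E →* PG (k j) (N j + 1)) : Prop :=
  ∀ [MeasurableSpace E] [BorelSpace E] {Γ : Subgroup E} [DiscreteTopology Γ] [Countable Γ]
    [MeasurableSpace (E ⧸ Γ)] [BorelSpace (E ⧸ Γ)] {ν : Measure (E ⧸ Γ)}
    [IsProbabilityMeasure ν] (hν : ∀ g : E, ν.map (fun x => g • x) = ν)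
    (_ : IsLattice Γ) (_ : ∀ g : Γ, g ≠ 1 → Set.Infinite {y : Γ | ∃ h, y = h * g * h⁻¹})
    {Λ : Type} [Group Λ] [Countable Λ]
    (_ : ∀ g : Λ, g ≠ 1 → Set.Infinite {y : Λ | ∃ h, y = h * g * h⁻¹})
    {I : Type} [Fintype I] {α : Γ → (Ell2 (I × Λ) →L[ℂ] Ell2 (I × Λ))} (hα : AF α),
    ∃ (w : ∀ j, (k j)ˣ) (κ : Type) (_ : Fintype κ)
      (Ω : κ → Lp (HH (PT α α α)) 2 (cdat ν hν).μ)
      (m : Set Γ → (Lp (HH (PT α α α)) 2 (cdat ν hν).μ →L[ℂ]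
        Lp (HH (PT α α α)) 2 (cdat ν hν).μ)) (τ : J → J) (q : ∀ j, Γ → GG (l (τ j)) (N j))
      (Ec F : ∀ j, YY (k j) (N j) → (CY (l (τ j)) (N j) →⋆ₐ[ℂ]
        (Lp (HH (PT α α α)) 2 (cdat ν hν).μ →L[ℂ] Lp (HH (PT α α α)) 2 (cdat ν hν).μ))),
      (∀ j, LegNF (μ j) (w j) (ι j) (a j) (a' j)
        (H34.Ind.pi (cdat ν hν) (V := V3 hα hα hα) (adjV3 hα))
        (H34.Ind.lam (cdat ν hν) (A3R hα hα hα))
        (H34.Ind.Xset (cdat ν hν) (HH (PT α α α)) ∪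
          Set.range (H34.Ind.lam (cdat ν hν) (B3R hα hα hα))) Ω m (q j) (ZP q j)
        (Ec j) (F j)) ∧
      (∀ γ, (∀ j, sp (l (τ j)) (N j + 1) (q j γ) = 1) → γ = 1) ∧
      (∀ C : ℝ, {γ : Γ | ∀ j, nm (q j γ) ≤ C}.Finite)

/-- **The second leg is the flip of the first one.** -/
theorem exPT_of_half {J : Type} [Fintype J] {k l : J → Type}
    [∀ j, NontriviallyNormedField (k j)]
    [∀ j, ProperSpace (k j)] [∀ j, MeasurableSpace (k j)] [∀ j, NontriviallyNormedField (l j)]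
    [∀ j, ProperSpace (l j)] {μ : ∀ j, Measure (k j)} {N : J → ℕ}
    {E : Type} [Group E] [TopologicalSpace E]
    [IsTopologicalGroup E] [LocallyCompactSpace E] [SecondCountableTopology E] [T2Space E]
    {ι : ∀ j, GG (k j) (N j) →* E} {a a' : ∀ j, E →* PG (k j) (N j + 1)}
    (h : ExPHalfT k l μ N ι a a') : ExPStmtT k l μ N ι a a' := by
  intro _ _ Γ _ _ _ _ ν _ hν hΓ hicc Λ _ _ hΛ I _ α hα
  refine exP_of_half ?_ (h (Γ := Γ) hν hΓ hicc hΛ hα)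
  intro κ iκ Ω m
  exact ⟨_, _, fun j i w q Z Ec F l1 => ⟨_, _, legNF_flip hν (sT_sq hα) (sT_adj hα) (sT_V hα)
    (sT_A hα) (sT_B hα) (adjV3 hα) l1⟩⟩

/-- **[P-HALF-T]** for `E = ∏ PGL_(N j + 1)(k j)`, all local fields, all amplifications -/
def ExPGHalfT : Prop :=
  ∀ {J : Type} [Fintype J] [DecidableEq J] (k : J → Type) [∀ j, NontriviallyNormedField (k j)]
    [∀ j, ProperSpace (k j)] [∀ j, MeasurableSpace (k j)] [∀ j, BorelSpace (k j)]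
    (μ : ∀ j, Measure (k j)) [∀ j, (μ j).IsAddHaarMeasure] (N : J → ℕ),
    (∀ j, H933.LocK (k j)) → (∀ j, 2 ≤ N j) →
    ∃ (l : J → Type) (_ : ∀ j, NontriviallyNormedField (l j)) (_ : ∀ j, ProperSpace (l j)),
      (∀ j, H933.LocK (l j)) ∧ ExPHalfT k l μ N (iG k N) (aG k N) (aG' k N)

end half

/-! ### The source group `∏ PGL_n(k)` -/

/-- **the core statement for `∏ PGL_(N j + 1)(k j)`**, mixed fields, all amplifications -/
theorem coreAllE_PG (hJ : Joints) (hEx : ExPGHalfT) {J : Type} [Fintype J] (k : J → Type)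
    [∀ j, NontriviallyNormedField (k j)] [∀ j, ProperSpace (k j)] (N : J → ℕ)
    (hk : ∀ j, H933.LocK (k j)) (hN : ∀ j, 2 ≤ N j) : CoreAllE (∀ j, PG (k j) (N j + 1)) := by
  classical
  rcases isEmpty_or_nonempty J with hJ0 | ⟨⟨j₀⟩⟩
  · haveI : Subsingleton (∀ j, PG (k j) (N j + 1)) := ⟨fun x y => funext fun j => hJ0.elim j⟩
    exact coreAllE_of_subsingleton _
  · letI : ∀ j, MeasurableSpace (k j) := fun j => borel _
    haveI : ∀ j, BorelSpace (k j) := fun j => ⟨rfl⟩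
    have hA := admP_PG k N hk hN
    haveI : NoncompactSpace (∀ j, PG (k j) (N j + 1)) := noncompact_of_adm (hA.adm j₀)
    obtain ⟨l, _, _, hl, h⟩ := hEx k (fun j => (Measure.addHaar : Measure (k j))) N hk hN
    exact coreAllP_of hA hl (fun i j => (hJ (k i) (l j) _ (hk i) (hl j)).1)
      (fun i j => (hJ (k i) (l j) _ (hk i) (hl j)).2) (exPT_of_half h)

/-! ### The top -/

/-- **The final statement for the class `UN.LatticeP`**, all amplifications, from the core. -/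
theorem superAll_latticeP (h : ∀ {J : Type} [Fintype J] (k : J → Type)
    [∀ j, NontriviallyNormedField (k j)] [∀ j, ProperSpace (k j)] (N : J → ℕ),
    (∀ j, H933.LocK (k j)) → (∀ j, 2 ≤ N j) → CoreAllE (∀ j, PG (k j) (N j + 1)))
    (Γ : Type) [Group Γ] (hΓ : UN.LatticeP Γ) : UN.SuperAll Γ := by
  obtain ⟨hicc, J, _, N, k, _, _, i, hk, hN, hi, hl⟩ := H188.LatP.exists_pgl0 hΓ
  exact UN.superAll_of (superAll_of_coreAllE
    (h k N (fun j => SN.lk ((UN.locK_iff _).1 (hk j))) hN) hicc i hi hl)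

/-- **The final statement for the class `UN.LatticeP`**, `t = 1`, from the core. -/
theorem super_latticeP (h : ∀ {J : Type} [Fintype J] (k : J → Type)
    [∀ j, NontriviallyNormedField (k j)] [∀ j, ProperSpace (k j)] (N : J → ℕ),
    (∀ j, H933.LocK (k j)) → (∀ j, 2 ≤ N j) → SN.CoreE (∀ j, PG (k j) (N j + 1)))
    (Γ : Type) [Group Γ] (hΓ : UN.LatticeP Γ) : UN.Super Γ := by
  obtain ⟨hicc, J, _, N, k, _, _, i, hk, hN, hi, hl⟩ := H188.LatP.exists_pgl0 hΓ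
  exact UN.super_of (SN.super_of_coreE
    (h k N (fun j => SN.lk ((UN.locK_iff _).1 (hk j))) hN) hicc i hi hl)

/-- **Team SX**, all amplifications -/
theorem superAllP (hJ : Joints) (hEx : ExPGHalfT) :
    ∀ (Γ : Type) [Group Γ], UN.LatticeP Γ → UN.SuperAll Γ :=
  fun Γ _ hΓ => superAll_latticeP (fun k _ _ N hk hN => coreAllE_PG hJ hEx k N hk hN) Γ hΓ

/-- **Team SX**, `t = 1` -/
theorem superP (hJ : Joints) (hEx : ExPG) :
    ∀ (Γ : Type) [Group Γ], UN.LatticeP Γ → UN.Super Γ :=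
  fun Γ _ hΓ => super_latticeP (fun k _ _ N hk hN => coreE_PG hJ hEx k N hk hN) Γ hΓ

end Vale.Agent.P092.SX
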