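import Vale.Agent.P092.SX.Jn
import Vale.Agent.P092.SX.FinT
import Vale.Agent.P092.H962.NT.ExPG
import Vale.Agent.P092.H719.Lat3

/-!
P092, TEAM N, two fields, all amplifications (helper962, helper157, helper943, helper232, helper34,
helper305, helper725, helper188): **the closed theorem**: every ICC group in `UN.LatticeP`
(extension of a lattice in a product of groups of type `A`, any isogeny type and any local fields,
by compact kernels) is W*-superrigid, with all amplifications.
-/

set_option linter.all false

namespace Vale.Agent.P092.SX.EndT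

/-- **all `t`, the class `UN.LatticeP`.** -/
theorem superAllP : ∀ (Γ : Type) [Group Γ], UN.LatticeP Γ → UN.SuperAll Γ :=
  SX.superAllP SX.joints H962.NT.exPGHalfT

/-- **all `t`, the class `UN.LatticeG`.** -/
theorem superAllG : ∀ (Γ : Type) [Group Γ], UN.LatticeG Γ → UN.SuperAll Γ :=
  fun Γ _ h => superAllP Γ (H188.LatP.latticeP_of_latticeG h)

/-- **all `t`, the class `UN.LatticeA`.** -/
theorem superAllA : ∀ (Γ : Type) [Group Γ], UN.LatticeA Γ → UN.SuperAll Γ :=
  fun Γ _ h => superAllG Γ (H719.Lt.latticeG_of_latticeA h)

end Vale.Agent.P092.SX.EndT
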