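import Vale.Agent.P092.SNT.X
import Vale.Agent.P092.H375.X2.Sig2

/-!
P092, TEAM N, two fields (architect helper232): the letters of `SN.Defs`, `SNT.Amp`, `SNT.X` with a
SOURCE field `kS` and a TARGET field `k`, `n = N + 1` in both.

* SOURCE: a group `E`, `ι : SL_n(kS) →* E`, `a, a' : E →* PGL_n(kS)` (`SN.Adm`, unchanged).
* TARGET: `q : Γ → SL_n(k)`, a homomorphism modulo scalars (`SN.PH q`, unchanged).
* The boundary calculi `Ec, F : YY kS N → (C(YY k N, ℂ) →⋆ₐ[ℂ] B(K))`: points / hyperplanes over `kS`,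
  functions of points / hyperplanes over `k`.
* The picture is `RC.PicX` (weaker than `RC.Pic`), so that the same chain serves all amplifications.
* For `kS = k` these are the letters of `SN` (`SX/One.lean`).
-/

set_option linter.all false

open scoped InnerProductSpace ENNReal LinearAlgebra.Projectivization ZeroAtInfty
open Filter Topology ContinuousLinearMap MeasureTheory TopologicalSpace

namespace Vale.Agent.P092.SX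

open Vale.Agent.P092.SN (CY CG inc NInc bw un nm NW Att act PH UD NWA actG fp fh Prv Adm)
open Vale.Agent.P092.SD (Ms UC MsF)
open Vale.Agent.P092.RC (Cm TRN Moore GG PG YY y0 ct PicF)
open Vale.Agent.P092.H790.CTA (ORBG SIZEG)
open Vale.Agent.P092.H100.Gr (Gr)
open Vale.Agent.P092.H644.Gr3 (p1 hyp)
open Vale.Agent.P092.SNT (ORBGF)
open Vale.Agent.P092.H375.X2 (sgm)

/-! ### One leg -/

section pic

variable {kS k : Type} [NontriviallyNormedField kS] [ProperSpace kS] [NontriviallyNormedField k]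
  [ProperSpace k] {N : ℕ} {E Γ K : Type} [Group E] [TopologicalSpace E] [Group Γ]
  [NormedAddCommGroup K] [InnerProductSpace ℂ K] [CompleteSpace K]

/-- (NWS) near-wall mass, uniformly in `t` -/
def NWS (w : kSˣ) (ι : GG kS N →* E) (π : E →* (K →L[ℂ] K)) (Ω : K)
    (m : Set Γ → (K →L[ℂ] K)) (q : Γ → GG k N) (Z : ℝ → Set Γ) : Prop :=
  ∀ g : GG kS N, ∀ ε > 0, ∃ R : ℝ, ∀ t : ℕ,
    ‖m {γ | ¬ (γ ∈ Z R ∧ NW R (q γ))} (π (ι (g * bw w ^ t * g⁻¹))⁻¹ Ω)‖ ≤ ε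

/-- The boundary calculi of the points of the source. For the hyperplanes:
`EFam w (ι.comp ct) a' π lam W m (fun γ => ct (q γ)) Z F`. -/
structure EFam (w : kSˣ) (ι : GG kS N →* E) (a : E →* PG kS (N + 1)) (π : E →* (K →L[ℂ] K))
    (lam : Γ →* (K →L[ℂ] K)) (W : Set (K →L[ℂ] K)) (m : Set Γ → (K →L[ℂ] K)) (q : Γ → GG k N)
    (Z : ℝ → Set Γ) (Ec : YY kS N → (CY k N →⋆ₐ[ℂ] (K →L[ℂ] K))) : Prop where
  cm : ∀ x f, Cm W (Ec x f)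
  cov : ∀ γ x f, lam γ * Ec x f * lam γ⁻¹ = Ec x (act (q γ) f)
  pcov : ∀ e x f, π e * Ec x f * π e⁻¹ = Ec (a e • x) f
  /-- domination by the limits of the cut-offs -/
  dom : ∀ (g : GG kS N) (u : CY k N) (A : Set (YY k N)), IsOpen A → tsupport u ⊆ A → ∀ ζ : K,
    ∀ ε > 0, ∃ R : ℝ, ∀ T > 0, ∀ᶠ t : ℕ in atTop,
      ‖Ec (g • y0) u ζ‖ ≤ ‖u‖ * ‖m (NWA q Z R T A) (π (ι (g * bw w ^ t * g⁻¹))⁻¹ ζ)‖ + ε
  /-- two different points agree nowhere -/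
  agr : ∀ x y, x ≠ y → ∀ ξ, (∀ f, Ec x f ξ = Ec y f ξ) → ξ = 0

/-- One leg: everything the analysis delivers. -/
structure LegN [MeasurableSpace kS] (μ : Measure kS) (w : kSˣ) (ι : GG kS N →* E)
    (a a' : E →* PG kS (N + 1)) (π : E →* (K →L[ℂ] K)) (lam : Γ →* (K →L[ℂ] K))
    (W : Set (K →L[ℂ] K)) (Ω : K) (m : Set Γ → (K →L[ℂ] K)) (q : Γ → GG k N) (Z : ℝ → Set Γ)
    (Ec F : YY kS N → (CY k N →⋆ₐ[ℂ] (K →L[ℂ] K))) : Prop where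
  adm : Adm ι a a'
  hw : ‖(w : kS)‖ < 1
  pic : RC.PicX π lam W Ω
  ms : Ms lam W Ω m
  uc : UC π W Ω m
  ph : PH q
  zm : Monotone Z
  ud : ∀ R, UD q (Z R)
  orb : ∀ {j : Fin (N + 1)} (hj : (0 : Fin (N + 1)) ≠ j), ∃ ρ : ℝ, 0 < ρ ∧ ρ < 1 ∧
    ORBG μ (ι (bw w)) (fun s => ι (un hj s)) ρ π lam W Ω
  orb' : ∀ {j : Fin (N + 1)} (hj : (0 : Fin (N + 1)) ≠ j), ∃ ρ : ℝ, 0 < ρ ∧ ρ < 1 ∧
    ORBG μ (ι (ct (bw w))) (fun s => ι (ct (un hj s))) ρ π lam W Ω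
  size : SIZEG (ι (bw w)) π Ω m fun γ => nm (q γ)
  size' : SIZEG (ι (ct (bw w))) π Ω m fun γ => nm (ct (q γ))
  nws : NWS w ι π Ω m q Z
  nws' : NWS w (ι.comp ct) π Ω m (fun γ => ct (q γ)) Z
  e : EFam w ι a π lam W m q Z Ec
  f : EFam w (ι.comp ct) a' π lam W m (fun γ => ct (q γ)) Z F
  /-- no `Γ`-invariant state on the functions of subspaces: `NIS fun γ x => q γ • x` -/
  nis : ∀ j, 1 ≤ j → j ≤ N → ∀ φ : CG k N j →ₗ[ℂ] ℂ, (∀ f, 0 ≤ (φ (star f * f)).re) →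
    φ 1 = 1 → (∀ γ, ∀ f f' : CG k N j, (∀ x, f' (q γ • x) = f x) → φ f' = φ f) → False

/-- One leg with a finite family of vectors (all amplifications). -/
structure LegNF {κ : Type} [Fintype κ] [MeasurableSpace kS] (μ : Measure kS) (w : kSˣ)
    (ι : GG kS N →* E) (a a' : E →* PG kS (N + 1)) (π : E →* (K →L[ℂ] K))
    (lam : Γ →* (K →L[ℂ] K)) (W : Set (K →L[ℂ] K)) (Ω : κ → K) (m : Set Γ → (K →L[ℂ] K))
    (q : Γ → GG k N) (Z : ℝ → Set Γ) (Ec F : YY kS N → (CY k N →⋆ₐ[ℂ] (K →L[ℂ] K))) : Prop where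
  adm : Adm ι a a'
  hw : ‖(w : kS)‖ < 1
  pic : PicF π lam W Ω
  ms : MsF lam W Ω m
  uc : ∀ i, UC π W (Ω i) m
  ph : PH q
  zm : Monotone Z
  ud : ∀ R, UD q (Z R)
  orb : ∀ {j : Fin (N + 1)} (hj : (0 : Fin (N + 1)) ≠ j), ∃ ρ : ℝ, 0 < ρ ∧ ρ < 1 ∧
    ORBGF μ (ι (bw w)) (fun s => ι (un hj s)) ρ π lam W Ω
  orb' : ∀ {j : Fin (N + 1)} (hj : (0 : Fin (N + 1)) ≠ j), ∃ ρ : ℝ, 0 < ρ ∧ ρ < 1 ∧
    ORBGF μ (ι (ct (bw w))) (fun s => ι (ct (un hj s))) ρ π lam W Ω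
  size : ∀ i, SIZEG (ι (bw w)) π (Ω i) m fun γ => nm (q γ)
  size' : ∀ i, SIZEG (ι (ct (bw w))) π (Ω i) m fun γ => nm (ct (q γ))
  nws : ∀ i, NWS w ι π (Ω i) m q Z
  nws' : ∀ i, NWS w (ι.comp ct) π (Ω i) m (fun γ => ct (q γ)) Z
  e : EFam w ι a π lam W m q Z Ec
  f : EFam w (ι.comp ct) a' π lam W m (fun γ => ct (q γ)) Z F
  nis : ∀ j, 1 ≤ j → j ≤ N → ∀ φ : CG k N j →ₗ[ℂ] ℂ, (∀ f, 0 ≤ (φ (star f * f)).re) →
    φ 1 = 1 → (∀ γ, ∀ f f' : CG k N j, (∀ x, f' (q γ • x) = f x) → φ f' = φ f) → False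

/-- The calculi of all subspaces: output of the rank count. -/
structure CalN (ι : GG kS N →* E) (π : E →* (K →L[ℂ] K)) (lam : Γ →* (K →L[ℂ] K))
    (W : Set (K →L[ℂ] K)) (q : Γ → GG k N) (Ec F : YY kS N → (CY k N →⋆ₐ[ℂ] (K →L[ℂ] K)))
    (G : ∀ j, Gr kS (Fin (N + 1)) j → (CG k N j →⋆ₐ[ℂ] (K →L[ℂ] K))) : Prop where
  cal : H218.NC.Cal G
  pnt : ∀ c f, G 1 (p1 c) f = Ec c (fp f)
  top : ∀ M f, G N (hyp M) f = F M (fh f)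
  cm : ∀ j, 1 ≤ j → j ≤ N → ∀ X f, Cm W (G j X f)
  cov : ∀ j, 1 ≤ j → j ≤ N → ∀ γ X f, lam γ * G j X f * lam γ⁻¹ = G j X (actG (q γ) f)
  pcov : ∀ j, 1 ≤ j → j ≤ N → ∀ g X f, π (ι g) * G j X f * π (ι g)⁻¹ = G j (g • X) f
  cen : ∀ j, 1 ≤ j → j ≤ N → ∀ X (T : K →L[ℂ] K),
    (∀ M f, X.1 ≤ (hyp M).1 → T * F M f = F M f * T) → ∀ f, T * G j X f = G j X f * T

/-- [N-CLS] The calculus of the collineation `x` over `k` with `Ec b f = f (x • sgm σ b)`. -/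
structure ClsN (a : E →* PG kS (N + 1)) (π : E →* (K →L[ℂ] K)) (lam : Γ →* (K →L[ℂ] K))
    (W : Set (K →L[ℂ] K)) (q : Γ → GG k N) (Ec : YY kS N → (CY k N →⋆ₐ[ℂ] (K →L[ℂ] K)))
    (σ : kS →+* k) (Q : C₀(PG k (N + 1), ℂ) →⋆ₙₐ[ℂ] (K →L[ℂ] K)) : Prop where
  nd : ∀ ξ, (∀ ψ, Q ψ ξ = 0) → ξ = 0
  cm : ∀ ψ, Cm W (Q ψ)
  cov : ∀ γ (ψ ψ' : C₀(PG k (N + 1), ℂ)), (∀ x, ψ' x = ψ ((H35.sp k (N + 1) (q γ))⁻¹ * x)) →
    lam γ * Q ψ * lam γ⁻¹ = Q ψ'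
  /-- `e` acts on the right by the collineation `x` -/
  pcov : ∀ e (x : PG k (N + 1)), (∀ b : YY kS N, x • sgm σ (N + 1) b = sgm σ (N + 1) (a e • b)) →
    ∀ ψ ψ' : C₀(PG k (N + 1), ℂ), (∀ y, ψ' y = ψ (y * x)) → π e * Q ψ * π e⁻¹ = Q ψ'
  mulE : ∀ b (f : CY k N) (ψ ψ' : C₀(PG k (N + 1), ℂ)),
    (∀ x, ψ' x = f (x • sgm σ (N + 1) b) * ψ x) → Ec b f * Q ψ = Q ψ'

end pic

end Vale.Agent.P092.SX
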