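import Vale.Agent.P092.SX.Blocks

/-!
P092, TEAM N, two fields (helper157): the amplification of the leg `SX.LegNF` of a family, and the
transport of `SX.LegNF` along a unitary is in `SX/Tw.lean`.
-/

set_option linter.all false

open scoped InnerProductSpace ENNReal LinearAlgebra.Projectivization ZeroAtInfty
open Filter Topology ContinuousLinearMap MeasureTheory TopologicalSpace

namespace Vale.Agent.P092.SX

open Vale.Agent.P092.SN (CY CG inc NInc bw un nm NW Att act PH UD NWA actG fp fh Prv Adm)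
open Vale.Agent.P092.H333.Amp
open Vale.Agent.P092.SD (Ms UC MM MsF norm_amp_le norm_le_coord)
open Vale.Agent.P092.RC (Cm TRN Moore GG PG YY y0 ct TRNF PicF ampH ampH_ap ampW ampO ampO_ap
  ampO_ne sum_ampO cm_ampW cm_amp amp_comm_iff inner_ampO norm_ampO trn_amp enorm_sq_KT ampS
  ampS_ap)
open Vale.Agent.P092.H790.CTA (ORBG SIZEG)
open Vale.Agent.P092.SNT (ORBGF uc_ampG size_ampG orb_ampG ampC ampC_ap NW_mono NWA_mono
  continuous_unN continuous_ctN)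

variable {kS k : Type} [NontriviallyNormedField kS] [ProperSpace kS] [NontriviallyNormedField k]
  [ProperSpace k] {N : ℕ} {E Γ K κ Q : Type}
  [Group E] [TopologicalSpace E] [Group Γ] [NormedAddCommGroup K] [InnerProductSpace ℂ K]
  [CompleteSpace K] [Fintype κ] [Group Q] [Fintype Q]
  {w : kSˣ} {ι : GG kS N →* E} {a a' : E →* PG kS (N + 1)} {π : E →* (K →L[ℂ] K)}
  {lam : Γ →* (K →L[ℂ] K)} {W : Set (K →L[ℂ] K)} {Ω : κ → K} {m : Set Γ → (K →L[ℂ] K)}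
  {q : Γ → GG k N} {Z : ℝ → Set Γ} {Ec F : YY kS N → (CY k N →⋆ₐ[ℂ] (K →L[ℂ] K))}

theorem nws_amp (hm : MsF lam W Ω m) (hZ : Monotone Z) (h : ∀ i, NWS w ι π (Ω i) m q Z)
    (j : κ ↪ Q) :
    NWS w ι (ampH Q π) (ampO j Ω) (fun S => H333.Amp.amp (Q := Q) (m S)) q Z := by
  intro g ε hε
  have h1 : ∀ i, ∃ R : ℝ, ∀ t : ℕ, ‖m {γ | ¬ (γ ∈ Z R ∧ NW R (q γ))}
      (π (ι (g * bw w ^ t * g⁻¹))⁻¹ (Ω i))‖ ≤ ε / (Fintype.card κ + 1) :=
    fun i => h i g _ (by positivity)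
  choose R hR using h1
  obtain ⟨R', hR'⟩ := (Set.finite_range R).bddAbove
  refine ⟨R', fun t => ?_⟩
  obtain ⟨x, hx⟩ : ∃ x : E, x = (ι (g * bw w ^ t * g⁻¹))⁻¹ := ⟨_, rfl⟩
  obtain ⟨S, hS⟩ : ∃ S : Set Γ, S = {γ | ¬ (γ ∈ Z R' ∧ NW R' (q γ))} := ⟨_, rfl⟩
  have e1 : ∀ (A B : K →L[ℂ] K) (v : KT Q K), H333.Amp.amp (Q := Q) A (H333.Amp.amp (Q := Q) B v) =
      H333.Amp.amp (Q := Q) (A * B) v := fun A B v => by rw [amp_mul]; rfl
  rw [← hx, ← hS, ampH_ap, e1]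
  refine norm_amp_le j Ω hε.le fun i => ?_
  have h2 := hR i t
  rw [← hx] at h2
  refine le_trans ?_ h2
  change ‖m S (π x (Ω i))‖ ≤ _
  refine hm.mono ?_ _
  intro γ hγ hc
  rw [hS] at hγ
  exact hγ ⟨hZ (hR' ⟨i, rfl⟩) hc.1, NW_mono (hR' ⟨i, rfl⟩) hc.2⟩

theorem efam_amp (hm : MsF lam W Ω m) (hZ : Monotone Z) (h : EFam w ι a π lam W m q Z Ec) :
    EFam w ι a (ampH Q π) (ampH Q lam) (ampW Q W) (fun S => H333.Amp.amp (Q := Q) (m S)) q Z
      (fun x => ampC Q (Ec x)) where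
  cm x f := cm_amp (h.cm x f)
  cov γ x f := by rw [ampC_ap, ampC_ap, ampH_ap, ampH_ap, ← amp_mul, ← amp_mul, h.cov]
  pcov g x f := by rw [ampC_ap, ampC_ap, ampH_ap, ampH_ap, ← amp_mul, ← amp_mul, h.pcov]
  dom g u A hA hu ζ ε hε := by
    have h1 : ∀ x : Q, ∃ R : ℝ, ∀ T > 0, ∀ᶠ t : ℕ in atTop,
      ‖Ec (g • y0) u (ζ x)‖ ≤ ‖u‖ * ‖m (NWA q Z R T A)
        (π (ι (g * bw w ^ t * g⁻¹))⁻¹ (ζ x))‖ + ε / (Fintype.card Q + 1) :=
      fun x => h.dom g u A hA hu (ζ x) _ (by positivity)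
    choose R hR using h1
    obtain ⟨R', hR'⟩ := (Set.finite_range R).bddAbove
    refine ⟨R', fun T hT => ?_⟩
    filter_upwards [Filter.eventually_all.2 fun x => hR x T hT] with t ht
    refine norm_le_coord (norm_nonneg _) hε.le fun x => ?_
    have h2 : ‖m (NWA q Z (R x) T A) (π (ι (g * bw w ^ t * g⁻¹))⁻¹ (ζ x))‖ ≤
        ‖m (NWA q Z R' T A) (π (ι (g * bw w ^ t * g⁻¹))⁻¹ (ζ x))‖ :=
      hm.mono (NWA_mono hZ (hR' ⟨x, rfl⟩) A) _
    have h3 : ‖(ampC Q (Ec (g • y0)) u) ζ x‖ = ‖Ec (g • y0) u (ζ x)‖ := rfl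
    have h4 : ‖(H333.Amp.amp (Q := Q) (m (NWA q Z R' T A)))
        (ampH Q π (ι (g * bw w ^ t * g⁻¹))⁻¹ ζ) x‖ =
        ‖m (NWA q Z R' T A) (π (ι (g * bw w ^ t * g⁻¹))⁻¹ (ζ x))‖ := rfl
    rw [h3, h4]
    exact (ht x).trans (add_le_add_left (mul_le_mul_of_nonneg_left h2 (norm_nonneg _)) _)
  agr x y hxy ξ hξ := by
    apply ext_co
    intro z
    refine h.agr x y hxy (ξ z) fun f => ?_
    exact congrArg (fun v : KT Q K => v z) (hξ f)

/-- **The amplified leg has one vector.** `hp` is the amplified picture. -/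
theorem leg_amp [MeasurableSpace kS] [OpensMeasurableSpace kS] {μ : Measure kS}
    (h : LegNF μ w ι a a' π lam W Ω m q Z Ec F) (j : κ ↪ Q)
    (hp : RC.PicX (ampH Q π) (ampH Q lam) (ampW Q W) (ampO j Ω)) :
    LegN μ w ι a a' (ampH Q π) (ampH Q lam) (ampW Q W) (ampO j Ω)
      (fun S => H333.Amp.amp (Q := Q) (m S)) q Z (fun x => ampC Q (Ec x))
      (fun x => ampC Q (F x)) where
  adm := h.adm
  hw := h.hw
  pic := hp
  ms := h.ms.amp j
  uc := uc_ampG h.uc j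
  ph := h.ph
  zm := h.zm
  ud := h.ud
  orb hj := by
    haveI := h.adm.tg
    obtain ⟨ρ, h0, h1, h2⟩ := h.orb hj
    exact ⟨ρ, h0, h1, orb_ampG (h.adm.cι.comp (continuous_unN hj)) h.pic.contP h0.le h2 j⟩
  orb' hj := by
    haveI := h.adm.tg
    obtain ⟨ρ, h0, h1, h2⟩ := h.orb' hj
    exact ⟨ρ, h0, h1, orb_ampG (h.adm.cι.comp (continuous_ctN.comp (continuous_unN hj)))
      h.pic.contP h0.le h2 j⟩
  size := size_ampG h.size j
  size' := size_ampG h.size' j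
  nws := nws_amp h.ms h.zm h.nws j
  nws' := nws_amp h.ms h.zm h.nws' j
  e := efam_amp h.ms h.zm h.e
  f := efam_amp h.ms h.zm h.f
  nis := h.nis

/-- the same for all sufficiently large amplifications -/
theorem exists_leg_amp [MeasurableSpace kS] [OpensMeasurableSpace kS] {μ : Measure kS}
    (h : LegNF μ w ι a a' π lam W Ω m q Z Ec F) :
    ∃ n : ℕ, ∀ (Q : Type) [Group Q] [Fintype Q], n ≤ Fintype.card Q → ∀ j : κ ↪ Q,
      LegN μ w ι a a' (ampH Q π) (ampH Q lam) (ampW Q W) (ampO j Ω)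
        (fun S => H333.Amp.amp (Q := Q) (m S)) q Z (fun x => ampC Q (Ec x))
        (fun x => ampC Q (F x)) := by
  obtain ⟨n, hn⟩ := h.pic.exists_amp
  exact ⟨n, fun Q _ _ hQ j => leg_amp h j (hn Q hQ j)⟩

end Vale.Agent.P092.SX
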