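import Vale.Agent.P092.SX.N
import Vale.Agent.P092.SX.Fin1
import Vale.Agent.P092.H375.X2.Cls

/-!
P092, TEAM N, two fields (helper232): the joints `SX.Joints` of one leg are theorems (proofs of
helper232, helper375 on the one-field proofs of the whole of TEAM N).
-/

set_option linter.all false

open MeasureTheory

namespace Vale.Agent.P092.SX

/-- **The joints of one leg**, source any local field, target any local field. -/
theorem joints : Joints := fun k l _ _ _ _ _ _ μ _ hk hl => ⟨legComm hl, H375.X2.clsStmt hk⟩

end Vale.Agent.P092.SX
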