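import Vale.Agent.P092.SX.FinT
import Vale.Agent.P092.SX.Jn
import Vale.Agent.P092.H305.PX.XG
import Vale.Agent.P092.H719.Lat3

/-!
P092, TEAM N, two fields (helper943): **the closed theorems for products with mixed fields**
(`t = 1`): every ICC group in `UN.LatticeP` (extension of a lattice in a product of groups of type
`A`, any isogeny type and any local fields, by compact kernels) is W*-superrigid.
-/

set_option linter.all false

namespace Vale.Agent.P092.SX.End

/-- **the core statement for `∏ PGL_(N j + 1)(k j)`**, mixed fields, `t = 1` -/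
theorem coreE_PG {J : Type} [Fintype J] (k : J → Type) [∀ j, NontriviallyNormedField (k j)]
    [∀ j, ProperSpace (k j)] (N : J → ℕ) (hk : ∀ j, H933.LocK (k j)) (hN : ∀ j, 2 ≤ N j) :
    SN.CoreE (∀ j, RC.PG (k j) (N j + 1)) :=
  SX.coreE_PG SX.joints H305.PX.exPG k N hk hN

/-- **`t = 1`, the class `UN.LatticeP`.** -/
theorem superP : ∀ (Γ : Type) [Group Γ], UN.LatticeP Γ → UN.Super Γ :=
  SX.superP SX.joints H305.PX.exPG

/-- **`t = 1`, the class `UN.LatticeG`.** -/
theorem superG : ∀ (Γ : Type) [Group Γ], UN.LatticeG Γ → UN.Super Γ :=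
  fun Γ _ h => superP Γ (H188.LatP.latticeP_of_latticeG h)

/-- **`t = 1`, the class `UN.LatticeA`.** -/
theorem superA : ∀ (Γ : Type) [Group Γ], UN.LatticeA Γ → UN.Super Γ :=
  fun Γ _ h => superG Γ (H719.Lt.latticeG_of_latticeA h)

end Vale.Agent.P092.SX.End
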