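import Vale.Agent.P092.SX.Amp
import Vale.Agent.P092.SNT.Flip

/-!
P092, TEAM N, two fields (helper157): transport of `SX.LegNF` along a unitary, and the second leg of
the induced picture by the flip, any fibre.
-/

set_option linter.all false

open scoped InnerProductSpace ENNReal LinearAlgebra.Projectivization ZeroAtInfty
open Filter Topology ContinuousLinearMap MeasureTheory TopologicalSpace

namespace Vale.Agent.P092.SX

open Vale.Agent.P092.RC (cj cj_ap cj_comm cm_cj norm_cj adjoint_cj Cm TRN TRNF Moore GG PG YY y0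
  PicF Tw ct)
open Vale.Agent.P092.SN (CY CG inc NInc bw un nm NW Att act PH UD NWA actG fp fh Prv Adm)
open Vale.Agent.P092.SD (cjH surj_vec cj_surj cj_norm_ap cj_smul_one MsF UC tw_uc)
open Vale.Agent.P092.SNT (TwF tw_picF tw_msF tw_orbgF ORBGF)
open Vale.Agent.P092.H859.TwN (tw_sizeg cjN cjN_ap)
open Vale.Agent.P092.H85 (cdat)

section leg

variable {kS k : Type} [NontriviallyNormedField kS] [ProperSpace kS] [NontriviallyNormedField k]
  [ProperSpace k] {N : ℕ} {K K' κ : Type}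
  [Fintype κ] [NormedAddCommGroup K] [InnerProductSpace ℂ K] [CompleteSpace K]
  [NormedAddCommGroup K'] [InnerProductSpace ℂ K'] [CompleteSpace K'] {u : K ≃ₗᵢ[ℂ] K'}
  {E Γ : Type} [Group E] [TopologicalSpace E] [Group Γ]
  {π : E →* (K →L[ℂ] K)} {lam : Γ →* (K →L[ℂ] K)}
  {W : Set (K →L[ℂ] K)} {Ω : κ → K} {π' : E →* (K' →L[ℂ] K')} {lam' : Γ →* (K' →L[ℂ] K')}
  {W' : Set (K' →L[ℂ] K')} {Ω' : κ → K'} {w : kSˣ} {q : Γ → GG k N} {Z : ℝ → Set Γ}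
  {m : Set Γ → (K →L[ℂ] K)} {ι : GG kS N →* E} {a a' : E →* PG kS (N + 1)}

theorem tw_nwsF {ι : GG kS N →* E} {q : Γ → GG k N} (t : TwF u π lam W Ω π' lam' W' Ω') (i : κ)
    (h : NWS w ι π (Ω i) m q Z) : NWS w ι π' (Ω' i) (fun S => cj u (m S)) q Z := by
  intro g ε hε
  obtain ⟨R, hR⟩ := h g ε hε
  refine ⟨R, fun N => ?_⟩
  rw [t.pi, t.Om, cj_ap, cj_norm_ap]
  exact hR N

theorem tw_efamF {Ec : YY kS N → (CY k N →⋆ₐ[ℂ] (K →L[ℂ] K))} {ι : GG kS N →* E}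
    {a : E →* PG kS (N + 1)} {q : Γ → GG k N}
    (t : TwF u π lam W Ω π' lam' W' Ω') (h : EFam w ι a π lam W m q Z Ec) :
    EFam w ι a π' lam' W' (fun S => cj u (m S)) q Z fun x => cjN u (Ec x) where
  cm x f := by
    rw [t.W, cjN_ap]
    exact (cm_cj u).2 (h.cm x f)
  cov γ x f := by
    rw [cjN_ap, cjN_ap, t.lam, t.lam, ← map_mul, ← map_mul, h.cov]
  pcov g x f := by
    rw [cjN_ap, cjN_ap, t.pi, t.pi, ← map_mul, ← map_mul, h.pcov]
  dom g v A hA hv ζ ε hε := by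
    obtain ⟨ζ, rfl⟩ := surj_vec u ζ
    obtain ⟨R, hR⟩ := h.dom g v A hA hv ζ ε hε
    refine ⟨R, fun T hT => ?_⟩
    filter_upwards [hR T hT] with N hN
    rw [cjN_ap, t.pi, cj_norm_ap, cj_ap, cj_norm_ap]
    exact hN
  agr x y hab ξ hξ := by
    obtain ⟨η, rfl⟩ := surj_vec u ξ
    rw [h.agr x y hab η fun f => ?_, map_zero]
    have h1 := hξ f
    rw [cjN_ap, cjN_ap, cj_ap, cj_ap] at h1
    exact u.injective h1

/-- **Transport of a leg with a family of vectors.** -/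
theorem tw_legNF [MeasurableSpace kS] {μ : Measure kS}
    {Ec F : YY kS N → (CY k N →⋆ₐ[ℂ] (K →L[ℂ] K))} (t : TwF u π lam W Ω π' lam' W' Ω')
    (h : LegNF μ w ι a a' π lam W Ω m q Z Ec F) :
    LegNF μ w ι a a' π' lam' W' Ω' (fun S => cj u (m S)) q Z (fun x => cjN u (Ec x))
      fun x => cjN u (F x) where
  adm := h.adm
  hw := h.hw
  pic := tw_picF t h.pic
  ms := tw_msF t h.ms
  uc i := tw_uc (t.one i) (h.uc i)
  ph := h.ph
  zm := h.zm
  ud := h.ud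
  orb hj := by
    obtain ⟨ρ, h1, h2, h3⟩ := h.orb hj
    exact ⟨ρ, h1, h2, tw_orbgF t h3⟩
  orb' hj := by
    obtain ⟨ρ, h1, h2, h3⟩ := h.orb' hj
    exact ⟨ρ, h1, h2, tw_orbgF t h3⟩
  size i := tw_sizeg (t.one i) (h.size i)
  size' i := tw_sizeg (t.one i) (h.size' i)
  nws i := tw_nwsF t i (h.nws i)
  nws' i := tw_nwsF t i (h.nws' i)
  e := tw_efamF t h.e
  f := tw_efamF t h.f
  nis := h.nis

end leg

section flip

open Vale.Agent.P092.SDT (flS)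

variable {E : Type} [Group E] [TopologicalSpace E] [IsTopologicalGroup E] [LocallyCompactSpace E]
  [SecondCountableTopology E] [T2Space E] [MeasurableSpace E] [BorelSpace E]
  {Γ : Subgroup E} [DiscreteTopology Γ] [Countable Γ] [MeasurableSpace (E ⧸ Γ)]
  [BorelSpace (E ⧸ Γ)] {ν : Measure (E ⧸ Γ)} [IsProbabilityMeasure ν]
  (hν : ∀ g : E, ν.map (fun x => g • x) = ν)
  {ℋ : Type} [NormedAddCommGroup ℋ] [InnerProductSpace ℂ ℋ] [CompleteSpace ℋ]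
  {V R₁ R₂ : Γ →* (ℋ →L[ℂ] ℋ)} {s : ℋ →L[ℂ] ℋ}

/-- the second leg from the first one, any fibre with a flip -/
theorem legNF_flip {kS k : Type} [NontriviallyNormedField kS] [ProperSpace kS]
    [NontriviallyNormedField k] [ProperSpace k] [MeasurableSpace kS]
    {μ : Measure kS} {N : ℕ} {w : kSˣ} {ι : GG kS N →* E} {a a' : E →* PG kS (N + 1)}
    (hs : s * s = 1) (ha : adjoint s = s) (sV : ∀ v, s * V v = V v * s)
    (s1 : ∀ g, s * R₁ g = R₂ g * s) (s2 : ∀ g, s * R₂ g = R₁ g * s)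
    (hV : ∀ v, adjoint (V v) = V v⁻¹) {κ : Type} [Fintype κ] {Ω : κ → Lp ℋ 2 (cdat ν hν).μ}
    {m : Set Γ → (Lp ℋ 2 (cdat ν hν).μ →L[ℂ] Lp ℋ 2 (cdat ν hν).μ)} {q : Γ → GG k N}
    {Z : ℝ → Set Γ}
    {Ec F : YY kS N → (CY k N →⋆ₐ[ℂ] (Lp ℋ 2 (cdat ν hν).μ →L[ℂ] Lp ℋ 2 (cdat ν hν).μ))}
    (h : LegNF μ w ι a a' (H34.Ind.pi (cdat ν hν) (V := V) hV) (H34.Ind.lam (cdat ν hν) R₁)
      (H34.Ind.Xset (cdat ν hν) ℋ ∪ Set.range (H34.Ind.lam (cdat ν hν) R₂)) Ω m q Z Ec F) :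
    LegNF μ w ι a a' (H34.Ind.pi (cdat ν hν) (V := V) hV) (H34.Ind.lam (cdat ν hν) R₂)
      (H34.Ind.Xset (cdat ν hν) ℋ ∪ Set.range (H34.Ind.lam (cdat ν hν) R₁))
      (fun i => flS (cdat ν hν) s hs ha (Ω i)) (fun S => cj (flS (cdat ν hν) s hs ha) (m S)) q Z
      (fun x => cjN (flS (cdat ν hν) s hs ha) (Ec x))
      fun x => cjN (flS (cdat ν hν) s hs ha) (F x) :=
  tw_legNF (SNT.twF_flip hν hs ha sV s1 s2 hV Ω) h

end flip

end Vale.Agent.P092.SX
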