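import Vale.Agent.P092.SX.Main1
import Vale.Agent.P092.SX.Tw
import Vale.Agent.P092.SNPT.Main

/-!
P092, TEAM N, two fields (helper157): the assembly for products with mixed fields, all
amplifications. Source fields `k j`, target fields `l j`.
-/

set_option linter.all false

open scoped InnerProductSpace ENNReal LinearAlgebra.Projectivization ZeroAtInfty
open Filter Topology ContinuousLinearMap MeasureTheory TopologicalSpace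

namespace Vale.Agent.P092.SX

open Vale.Agent.P092.SN (CY CG inc NInc bw un nm NW Att act PH UD NWA actG fp fh Prv Adm TVE qP)
open Vale.Agent.P092.SNP (AdmP ZP injP discP)
open Vale.Agent.P092.SNT (TVEF tvE_amp cleg_unamp tv_tri ampC CoreAllE)
open Vale.Agent.P092.RC (Cm TRN Moore GG PG YY y0 ct ampH ampH_ap ampW ampO ampW_union range_ampH
  amp_comm_iff adjV3)
open Vale.Agent.P092.H100.Gr (Gr)
open Vale.Agent.P092.H35 (sp mkP)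
open Vale.Agent.P092.H943 (FLeg joint_pi)
open Vale.Agent.P092.H333.Amp
open Vale.Agent.P092.H85 (cdat)

/-! ### The abstract part -/

section leg

variable {J : Type} {k l₁ l₂ : J → Type} [∀ j, NontriviallyNormedField (k j)]
  [∀ j, ProperSpace (k j)] [∀ j, MeasurableSpace (k j)]
  [∀ j, NontriviallyNormedField (l₁ j)] [∀ j, ProperSpace (l₁ j)]
  [∀ j, NontriviallyNormedField (l₂ j)] [∀ j, ProperSpace (l₂ j)]
  {μ : ∀ j, Measure (k j)} {N : J → ℕ} {E Γ K : Type} [Group E]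
  [TopologicalSpace E] [Group Γ] [NormedAddCommGroup K] [InnerProductSpace ℂ K] [CompleteSpace K]
  {ι : ∀ j, GG (k j) (N j) →* E} {a a' : ∀ j, E →* PG (k j) (N j + 1)}
  {π : E →* (K →L[ℂ] K)} {lam₁ lam₂ : Γ →* (K →L[ℂ] K)} {X : Set (K →L[ℂ] K)}

/-- **Two legs of families over a product give two commuting classical legs**, mixed fields. -/
theorem clegsP_of [Fintype J] [Countable Γ] [∀ j, BorelSpace (k j)]
    [∀ j, IsFiniteMeasureOnCompacts (μ j)] [∀ j, (μ j).IsOpenPosMeasure]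
    (hA : AdmP ι a a') (hk₁ : ∀ j, H933.LocK (l₁ j)) (hk₂ : ∀ j, H933.LocK (l₂ j))
    (g1 : ∀ j, LegComm (k j) (l₁ j) (μ j)) (g2 : ∀ j, LegComm (k j) (l₂ j) (μ j))
    (c1 : ∀ j, ClsStmt (k j) (l₁ j) (μ j)) (c2 : ∀ j, ClsStmt (k j) (l₂ j) (μ j))
    {κ κ₁ κ₂ : Type} [Fintype κ] [Fintype κ₁] [Fintype κ₂] {Ω : κ → K} {Ω₁ : κ₁ → K} {Ω₂ : κ₂ → K}
    (hp : RC.Pic2F π lam₁ lam₂ X Ω) (tv : TVEF π lam₁ (X ∪ Set.range lam₂) Ω)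
    {w₁ w₂ : ∀ j, (k j)ˣ} {m₁ m₂ : Set Γ → (K →L[ℂ] K)}
    {q₁ : ∀ j, Γ → GG (l₁ j) (N j)} {q₂ : ∀ j, Γ → GG (l₂ j) (N j)}
    {E₁ F₁ : ∀ j, YY (k j) (N j) → (CY (l₁ j) (N j) →⋆ₐ[ℂ] (K →L[ℂ] K))}
    {E₂ F₂ : ∀ j, YY (k j) (N j) → (CY (l₂ j) (N j) →⋆ₐ[ℂ] (K →L[ℂ] K))}
    (l1 : ∀ j, LegNF (μ j) (w₁ j) (ι j) (a j) (a' j) π lam₁ (X ∪ Set.range lam₂) Ω₁ m₁ (q₁ j)
      (ZP q₁ j) (E₁ j) (F₁ j))
    (l2 : ∀ j, LegNF (μ j) (w₂ j) (ι j) (a j) (a' j) π lam₂ (X ∪ Set.range lam₁) Ω₂ m₂ (q₂ j)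
      (ZP q₂ j) (E₂ j) (F₂ j))
    (i1 : ∀ γ, (∀ j, sp (l₁ j) (N j + 1) (q₁ j γ) = 1) → γ = 1)
    (i2 : ∀ γ, (∀ j, sp (l₂ j) (N j + 1) (q₂ j γ) = 1) → γ = 1)
    (d1 : ∀ C : ℝ, {γ : Γ | ∀ j, nm (q₁ j γ) ≤ C}.Finite)
    (d2 : ∀ C : ℝ, {γ : Γ | ∀ j, nm (q₂ j γ) ≤ C}.Finite) :
    ∃ (Q₁ : C₀(∀ j, PG (l₁ j) (N j + 1), ℂ) →⋆ₙₐ[ℂ] (K →L[ℂ] K))
      (Q₂ : C₀(∀ j, PG (l₂ j) (N j + 1), ℂ) →⋆ₙₐ[ℂ] (K →L[ℂ] K)),
      H264.Cl.CLeg π lam₁ (X ∪ Set.range lam₂)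
        (MonoidHom.pi fun j => qP (q₁ j) (l1 j).ph) Q₁ ∧
      H264.Cl.CLeg π lam₂ (X ∪ Set.range lam₁)
        (MonoidHom.pi fun j => qP (q₂ j) (l2 j).ph) Q₂ ∧
      ∀ ψ φ, Commute (Q₁ ψ) (Q₂ φ) := by
  choose n₁ h₁ using fun j => exists_leg_amp (l1 j)
  choose n₂ h₂ using fun j => exists_leg_amp (l2 j)
  obtain ⟨n₃, h₃⟩ := hp.leg₁.exists_amp
  obtain ⟨n₄, h₄⟩ := hp.leg₂.exists_amp
  obtain ⟨Q, _, _, ⟨jj⟩, hN⟩ := RC.exists_grp (κ ⊕ κ₁ ⊕ κ₂) (∑ j, n₁ j + ∑ j, n₂ j + n₃ + n₄)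
  obtain ⟨j₀, -⟩ : ∃ j : κ ↪ Q, True := ⟨Function.Embedding.inl.trans jj, trivial⟩
  obtain ⟨j₁, -⟩ : ∃ j : κ₁ ↪ Q, True :=
    ⟨(Function.Embedding.inl.trans Function.Embedding.inr).trans jj, trivial⟩
  obtain ⟨j₂, -⟩ : ∃ j : κ₂ ↪ Q, True :=
    ⟨(Function.Embedding.inr.trans Function.Embedding.inr).trans jj, trivial⟩
  have b1 : ∀ j, n₁ j ≤ ∑ j, n₁ j := fun j =>
    Finset.single_le_sum (f := n₁) (fun i _ => Nat.zero_le _) (Finset.mem_univ j)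
  have b2 : ∀ j, n₂ j ≤ ∑ j, n₂ j := fun j =>
    Finset.single_le_sum (f := n₂) (fun i _ => Nat.zero_le _) (Finset.mem_univ j)
  have L1 := fun j => h₁ j Q (by have := b1 j; omega) j₁
  have L2 := fun j => h₂ j Q (by have := b2 j; omega) j₂
  have P1 := h₃ Q (by omega) j₀
  have P2 := h₄ Q (by omega) j₀
  have T1 : TVE (ampH Q π) (ampH Q lam₁) (ampW Q (X ∪ Set.range lam₂)) (ampO j₀ Ω) := tvE_amp tv j₀
  letI : ∀ j, MeasurableSpace (l₁ j) := fun j => borel _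
  letI : ∀ j, MeasurableSpace (l₂ j) := fun j => borel _
  obtain ⟨σ₁, P, e1, k1⟩ := legP hA L1 g1 c1 fun i j _ => x12Stmt (hk₁ j)
  obtain ⟨σ₂, R, e2, k2⟩ := legP hA L2 g2 c2 fun i j _ => x12Stmt (hk₂ j)
  obtain ⟨QQ₁, C1, u1⟩ := joint_pi (fun j => fleg_of (l1 j).ph (e1 j)) k1
    (injP (fun j => (l1 j).ph) i1) (discP (fun j => (l1 j).ph) d1)
  obtain ⟨QQ₂, C2, u2⟩ := joint_pi (fun j => fleg_of (l2 j).ph (e2 j)) k2
    (injP (fun j => (l2 j).ph) i2) (discP (fun j => (l2 j).ph) d2)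
  have hc : ∀ i j ψ φ, Commute (P i ψ) (R j φ) := by
    have c1' : ∀ j, ClsN (a j) (ampH Q π) (ampH Q lam₁) (ampW Q X ∪ Set.range (ampH Q lam₂)) (q₁ j)
        (fun x => ampC Q (E₁ j x)) (σ₁ j) (P j) := fun j => by
      have h := e1 j
      rwa [ampW_union, ← range_ampH] at h
    have c2' : ∀ j, ClsN (a j) (ampH Q π) (ampH Q lam₂) (ampW Q X ∪ Set.range (ampH Q lam₁)) (q₂ j)
        (fun x => ampC Q (E₂ j x)) (σ₂ j) (R j) := fun j => by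
      have h := e2 j
      rwa [ampW_union, ← range_ampH] at h
    rw [ampW_union, ← range_ampH] at P1 P2 T1
    intro i j ψ φ
    exact H325.SX.pXcTN (ρ := fun j => MonoidHom.id (GG (k j) (N j))) (ι := ι) (X := ampW Q X)
      (Ω := ampO j₀ Ω) (fun j => H325.SX.symT_id) (fun j h b => hA.adm j |>.comp h b)
      (fun j' j hj h b => hA.triv j' j hj h b) P1 T1 P2.adjL
      (fun j => (l1 j).ph) (fun j => (l2 j).ph) d1 c1' k1 c2' k2 i j ψ φ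
  obtain ⟨P', f1, h1⟩ := cleg_unamp C1
  obtain ⟨R', f2, h2⟩ := cleg_unamp C2
  refine ⟨P', R', h1, h2, fun Ψ Φ => ?_⟩
  have h3 : Commute (QQ₁ Ψ) (QQ₂ Φ) := by
    refine u2 _ (fun j φ => ?_) Φ
    exact (u1 _ (fun i ψ => (hc i j ψ φ).symm) Ψ).symm
  rw [f1, f2] at h3
  exact amp_comm_iff.1 h3

end leg

/-! ### The concrete picture -/

section conc

open Vale.Agent.P092.SR Vale.Agent.P092.H160 Vale.Agent.P092.H103 Vale.Agent.P092.H962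
open Vale.Agent.P092.H515.St (IsLattice)

/-- **[P-EX-T]**, mixed fields, all amplifications: source fields `k j`, target fields `l j`; `q₁ j`
is the coordinate `τ₁ j` of the target (dualised if necessary) over the field `l (τ₁ j)`. The
families `Ω₁`, `Ω₂` are free. -/
def ExPStmtT {J : Type} [Fintype J] (k l : J → Type) [∀ j, NontriviallyNormedField (k j)]
    [∀ j, ProperSpace (k j)] [∀ j, MeasurableSpace (k j)] [∀ j, NontriviallyNormedField (l j)]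
    [∀ j, ProperSpace (l j)] (μ : ∀ j, Measure (k j)) (N : J → ℕ)
    {E : Type} [Group E] [TopologicalSpace E]
    [IsTopologicalGroup E] [LocallyCompactSpace E] [SecondCountableTopology E] [T2Space E]
    (ι : ∀ j, GG (k j) (N j) →* E) (a a' : ∀ j, E →* PG (k j) (N j + 1)) : Prop :=
  ∀ [MeasurableSpace E] [BorelSpace E] {Γ : Subgroup E} [DiscreteTopology Γ] [Countable Γ]
    [MeasurableSpace (E ⧸ Γ)] [BorelSpace (E ⧸ Γ)] {ν : Measure (E ⧸ Γ)}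
    [IsProbabilityMeasure ν] (hν : ∀ g : E, ν.map (fun x => g • x) = ν)
    (_ : IsLattice Γ) (_ : ∀ g : Γ, g ≠ 1 → Set.Infinite {y : Γ | ∃ h, y = h * g * h⁻¹})
    {Λ : Type} [Group Λ] [Countable Λ]
    (_ : ∀ g : Λ, g ≠ 1 → Set.Infinite {y : Λ | ∃ h, y = h * g * h⁻¹})
    {I : Type} [Fintype I] {α : Γ → (Ell2 (I × Λ) →L[ℂ] Ell2 (I × Λ))} (hα : AF α),
    ∃ (w : ∀ j, (k j)ˣ) (κ₁ κ₂ : Type) (_ : Fintype κ₁) (_ : Fintype κ₂)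
      (Ω₁ : κ₁ → Lp (HH (PT α α α)) 2 (cdat ν hν).μ) (Ω₂ : κ₂ → Lp (HH (PT α α α)) 2 (cdat ν hν).μ)
      (m₁ m₂ : Set Γ → (Lp (HH (PT α α α)) 2 (cdat ν hν).μ →L[ℂ]
        Lp (HH (PT α α α)) 2 (cdat ν hν).μ)) (τ₁ τ₂ : J → J)
      (q₁ : ∀ j, Γ → GG (l (τ₁ j)) (N j)) (q₂ : ∀ j, Γ → GG (l (τ₂ j)) (N j))
      (E₁ F₁ : ∀ j, YY (k j) (N j) → (CY (l (τ₁ j)) (N j) →⋆ₐ[ℂ]
        (Lp (HH (PT α α α)) 2 (cdat ν hν).μ →L[ℂ] Lp (HH (PT α α α)) 2 (cdat ν hν).μ)))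
      (E₂ F₂ : ∀ j, YY (k j) (N j) → (CY (l (τ₂ j)) (N j) →⋆ₐ[ℂ]
        (Lp (HH (PT α α α)) 2 (cdat ν hν).μ →L[ℂ] Lp (HH (PT α α α)) 2 (cdat ν hν).μ))),
      (∀ j, LegNF (μ j) (w j) (ι j) (a j) (a' j)
        (H34.Ind.pi (cdat ν hν) (V := V3 hα hα hα) (adjV3 hα))
        (H34.Ind.lam (cdat ν hν) (A3R hα hα hα))
        (H34.Ind.Xset (cdat ν hν) (HH (PT α α α)) ∪
          Set.range (H34.Ind.lam (cdat ν hν) (B3R hα hα hα))) Ω₁ m₁ (q₁ j) (ZP q₁ j)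
        (E₁ j) (F₁ j)) ∧
      (∀ j, LegNF (μ j) (w j) (ι j) (a j) (a' j)
        (H34.Ind.pi (cdat ν hν) (V := V3 hα hα hα) (adjV3 hα))
        (H34.Ind.lam (cdat ν hν) (B3R hα hα hα))
        (H34.Ind.Xset (cdat ν hν) (HH (PT α α α)) ∪
          Set.range (H34.Ind.lam (cdat ν hν) (A3R hα hα hα))) Ω₂ m₂ (q₂ j) (ZP q₂ j)
        (E₂ j) (F₂ j)) ∧
      (∀ γ, (∀ j, sp (l (τ₁ j)) (N j + 1) (q₁ j γ) = 1) → γ = 1) ∧
      (∀ γ, (∀ j, sp (l (τ₂ j)) (N j + 1) (q₂ j γ) = 1) → γ = 1) ∧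
      (∀ C : ℝ, {γ : Γ | ∀ j, nm (q₁ j γ) ≤ C}.Finite) ∧
      (∀ C : ℝ, {γ : Γ | ∀ j, nm (q₂ j γ) ≤ C}.Finite)

/-- **The core statement for a product, mixed fields, all amplifications**, from the joints. -/
theorem coreAllP_of {J : Type} [Fintype J] {k l : J → Type} [∀ j, NontriviallyNormedField (k j)]
    [∀ j, ProperSpace (k j)] [∀ j, MeasurableSpace (k j)] [∀ j, BorelSpace (k j)]
    [∀ j, NontriviallyNormedField (l j)] [∀ j, ProperSpace (l j)]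
    {μ : ∀ j, Measure (k j)} [∀ j, IsFiniteMeasureOnCompacts (μ j)]
    [∀ j, (μ j).IsOpenPosMeasure]
    {N : J → ℕ} {E : Type} [Group E] [TopologicalSpace E] [IsTopologicalGroup E]
    [LocallyCompactSpace E] [SecondCountableTopology E] [T2Space E]
    [NoncompactSpace E] {ι : ∀ j, GG (k j) (N j) →* E}
    {a a' : ∀ j, E →* PG (k j) (N j + 1)} (hA : AdmP ι a a') (hl : ∀ j, H933.LocK (l j))
    (h1 : ∀ i j, LegComm (k i) (l j) (μ i)) (h4 : ∀ i j, ClsStmt (k i) (l j) (μ i))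
    (hEx : ExPStmtT k l μ N ι a a') : CoreAllE E := by
  intro Γ hΓ hicc Λ _ _ hΛ n p hpj θ
  letI : MeasurableSpace E := borel _
  haveI : BorelSpace E := ⟨rfl⟩
  haveI hd : DiscreteTopology Γ := hΓ.disc
  haveI hc : Countable Γ := H790.countable_of_discrete (E := E) Γ
  letI : MeasurableSpace (E ⧸ Γ) := borel _
  haveI : BorelSpace (E ⧸ Γ) := ⟨rfl⟩
  obtain ⟨ν, hP', hν⟩ := H515.IsLattice.exists_prob (Λ := Γ) ⟨hΓ.disc, hΓ.covol⟩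
  have hα : AF (H103.alf θ) := H103.af_of hicc hpj θ
  obtain ⟨m, m', ξ, hT⟩ := H962.exists_tri hα hα hα hΛ
  obtain ⟨B, b, hB⟩ := H421.HsT.exists_basisHH (P := PT (H103.alf θ) (H103.alf θ) (H103.alf θ))
  have p2 := RC.pic2F_HH hν hα hα hα hicc hΛ (adjV3 hα) hT
  have tv := tv_tri hν (adjV3 hα) b hT
  obtain ⟨w, κ₁, κ₂, _, _, Ω₁, Ω₂, m₁, m₂, τ₁, τ₂, q₁, q₂, E₁, F₁, E₂, F₂, l1, l2, i1, i2, d1, d2⟩ :=
    hEx (Γ := Γ) hν hΓ hicc hΛ hα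
  obtain ⟨Q₁, Q₂, c1, c2, c12⟩ := clegsP_of (l₁ := fun j => l (τ₁ j)) (l₂ := fun j => l (τ₂ j)) hA
    (fun j => hl (τ₁ j)) (fun j => hl (τ₂ j)) (fun j => h1 j (τ₁ j)) (fun j => h1 j (τ₂ j))
    (fun j => h4 j (τ₁ j)) (fun j => h4 j (τ₂ j)) p2 tv l1 l2 i1 i2 d1 d2
  exact H264.Amp.canonM_of_over hicc hΛ hpj θ rfl hα (H264.Amp.over_of_legs hν hT
    (X := H34.Ind.Xset (cdat ν hν) (HH (PT (H103.alf θ) (H103.alf θ) (H103.alf θ))))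
    (fun S hS => ⟨S, hS, rfl⟩) c1 c2 c12)

end conc

end Vale.Agent.P092.SX
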