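import Vale.Agent.P092.SX.NC
import Vale.Agent.P092.H34.X.NK

/-!
P092, TEAM N, two fields (helper232): `SX.KeyStmt` from `SN.NJBStmt` of the target field (proof of
helper124, helper34).
-/

set_option linter.all false

open scoped InnerProductSpace ENNReal LinearAlgebra.Projectivization Matrix
open Filter Topology ContinuousLinearMap MeasureTheory TopologicalSpace

namespace Vale.Agent.P092.SX

open Vale.Agent.P092.SN (CY CG inc NInc bw un nm NW Att act PH UD NWA actG fp fh Prv Adm)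
open Vale.Agent.P092.SD (Ms UC)
open Vale.Agent.P092.RC (Cm TRN Moore GG PG YY y0 ct)
open Vale.Agent.P092.H790.CTA (ORBG SIZEG)
open Vale.Agent.P092.H100.Gr (Gr)
open Vale.Agent.P092.H644.Gr3 (p1 hyp)
open Vale.Agent.P092.H34.XN (picL)
open Vale.Agent.P092.H124.KL hiding key_one keyStmt commute_fix cov_inv

section key

variable {kS k : Type} [NontriviallyNormedField kS] [ProperSpace kS] [MeasurableSpace kS]
  [BorelSpace kS] [NontriviallyNormedField k] [ProperSpace k]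
  {μ : Measure kS} [IsFiniteMeasureOnCompacts μ] [μ.IsOpenPosMeasure]
  {N : ℕ} {E Γ K : Type} [Group E] [TopologicalSpace E] [Group Γ] [NormedAddCommGroup K]
  [InnerProductSpace ℂ K] [CompleteSpace K] {w : kSˣ} {ι : GG kS N →* E}
  {a a' : E →* PG kS (N + 1)} {π : E →* (K →L[ℂ] K)} {lam : Γ →* (K →L[ℂ] K)}
  {W : Set (K →L[ℂ] K)} {Ω : K} {m : Set Γ → (K →L[ℂ] K)} {q : Γ → GG k N} {Z : ℝ → Set Γ}
  {Ec F : YY kS N → (CY k N →⋆ₐ[ℂ] (K →L[ℂ] K))}
  {G : ∀ j, Gr kS (Fin (N + 1)) j → (CG k N j →⋆ₐ[ℂ] (K →L[ℂ] K))}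

/-- an element of the group which fixes a subspace commutes with its calculus -/
theorem commute_fix (hG : CalN ι π lam W q Ec F G) {j : ℕ} (h1 : 1 ≤ j) (h2 : j ≤ N)
    {X : Gr kS (Fin (N + 1)) j} {g : GG kS N} (hg : g • X = X) (f : CG k N j) :
    Commute (G j X f) (π (ι g)) := by
  have h := hG.pcov j h1 h2 g X f
  rw [hg] at h
  have h3 : π (ι g)⁻¹ * π (ι g) = 1 := by rw [← map_mul, inv_mul_cancel, map_one]
  change G j X f * π (ι g) = π (ι g) * G j X f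
  calc G j X f * π (ι g) = (π (ι g) * G j X f * π (ι g)⁻¹) * π (ι g) := by rw [h]
    _ = π (ι g) * G j X f * (π (ι g)⁻¹ * π (ι g)) := by simp only [mul_assoc]
    _ = π (ι g) * G j X f := by rw [h3, mul_one]

/-- covariance, inverse form -/
theorem cov_inv (hG : CalN ι π lam W q Ec F G) {j : ℕ} (h1 : 1 ≤ j) (h2 : j ≤ N)
    (X : Gr kS (Fin (N + 1)) j) (γ : Γ) (f : CG k N j) :
    lam γ * G j X (actG (q γ)⁻¹ f) * lam γ⁻¹ = G j X f := by
  rw [hG.cov j h1 h2]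
  congr 1
  ext x
  change f (((q γ)⁻¹)⁻¹ • ((q γ)⁻¹ • x)) = f x
  rw [inv_inv, smul_inv_smul]

/-- **KEY for one leg and one middle function `g ∈ D`** -/
theorem key_one (h : LegN μ w ι a a' π lam W Ω m q Z Ec F) (hG : CalN ι π lam W q Ec F G)
    {C : Gr kS (Fin (N + 1)) N} {l : Gr kS (Fin (N + 1)) 2} {b : Gr kS (Fin (N + 1)) 1}
    (hbC : b.1 ≤ C.1) (hlC : ¬ l.1 ≤ C.1) {u : CG k N N} {g : CG k N 2} {f : CG k N 1}
    (hni : H232.Nin H218.NC.In f u)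
    (hNJ : ∀ (R : ℝ) (A : Set (YY k N)), (∀ M ∈ closure A, ∀ x ∈ tsupport f, ¬ x.1 ≤ (hyp M).1) →
      ∃ T > 0, ∃ (c : ℝ) (d : ℕ), ∀ J : ℝ, 0 ≤ J → ∀ S : Finset Γ,
        (∀ γ ∈ S, γ ∈ NWA (fun γ => ct (q γ)) Z R T A ∧ Real.log (nm (ct (q γ))) ≤ J) →
        ∀ ξ : K, ∑ γ ∈ S, ‖G 1 b (actG (q γ)⁻¹ f) (G 2 l (actG (q γ)⁻¹ g) ξ)‖ ^ 2 ≤
          c * (1 + J) ^ d * ‖ξ‖ ^ 2) :
    G N C u * (G 2 l (star g) * G 1 b (star f)) = 0 := by
  haveI : IsTopologicalGroup E := h.adm.tg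
  have hN2 : 2 ≤ N := h.adm.hN
  have hN1 : 1 ≤ N := by omega
  have h01 : (0 : Fin (N + 1)) ≠ 1 := by
    obtain ⟨m', rfl⟩ : ∃ m', N = m' + 1 := ⟨N - 1, by omega⟩
    exact Fin.zero_ne_one
  have hP := picL h.pic
  obtain ⟨g₀, hgC, hgl⟩ := exists_std hN1 C l hlC
  obtain ⟨A, hA, huA, hAf⟩ := exists_open hni
  obtain ⟨ρ, hρ, hρ1, horb⟩ := h.orb' h01
  have hCx : C = hyp (ct g₀ • (y0 : YY kS N)) := by rw [hyp_ct, hyp_y0, hgC]
  have hconj : ∀ β : GG kS N, ι g₀ * ι β * (ι g₀)⁻¹ = ι (g₀ * β * g₀⁻¹) := by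
    intro β
    rw [map_mul, map_mul, map_inv]
  have hcomm : ∀ β : GG kS N, Fx β →
      Commute (G 2 l (star g) * G 1 b (star f)) (π (ι g₀ * ι β * (ι g₀)⁻¹)) := by
    intro β hβ
    obtain ⟨e1, e2⟩ := hβ.conj hN1 hgC hgl
    rw [hconj]
    exact Commute.mul_left (commute_fix hG (by omega) hN2 e1 _)
      (commute_fix hG le_rfl hN1 (e2 b hbC) _)
  have hCm : Cm W (G 2 l (star g) * G 1 b (star f)) := fun w' hw' => by
    rw [mul_assoc, hG.cm 1 le_rfl hN1 b (star f) w' hw', ← mul_assoc,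
      hG.cm 2 (by omega) hN2 l (star g) w' hw', mul_assoc]
  refine zero_of_count (μ := μ) (b := ι (ct (bw w))) (n := fun s : kS => ι (ct (un h01 s))) (ρ := ρ)
    (sz := fun γ => nm (ct (q γ))) (g := ι g₀) (c := ‖fh u‖)
    (NA := fun R T => NWA (fun γ => ct (q γ)) Z R T A) hP h.ms h.uc hρ hρ1 ?_ horb
    (size_trans h.ph) (fun γ => nm_pos _) h.size' hCm (hcomm _ (fx_bw w))
    (fun s => hcomm _ (fx_un h01 s)) ?_ ?_
  · have h1 : Continuous fun s : kS => ι (ct (un h01 s : GG kS N)) :=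
      h.adm.cι.comp (ct_continuous.comp (un_continuous h01))
    have h2 := h1.tendsto 0
    rw [un_zero, map_one, map_one] at h2
    exact h2
  · intro ζ ε hε
    obtain ⟨R, hR⟩ := h.f.dom (ct g₀) (fh u) A hA huA ζ ε hε
    refine ⟨R, fun T hT => (hR T hT).mono fun t ht => ?_⟩
    rw [hCx, hG.top]
    have e1 : (ι.comp ct) (ct g₀ * bw w ^ t * (ct g₀)⁻¹) =
        ι g₀ * ι (ct (bw w)) ^ t * (ι g₀)⁻¹ := by
      rw [map_mul, map_mul, map_pow, map_inv, MonoidHom.comp_apply, MonoidHom.comp_apply, ct_ct]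
    rw [e1] at ht
    exact ht
  · intro R
    obtain ⟨T, hT, c, d, hc⟩ := hNJ R A hAf
    refine ⟨T, hT, c, d, fun J hJ S hS => ?_⟩
    have h2 := hc J hJ S hS Ω
    rw [h.pic.nΩ, one_pow, mul_one] at h2
    refine le_trans (le_of_eq ?_) h2
    refine Finset.sum_congr rfl fun γ _ => ?_
    congr 1
    exact norm_adj' (H790.CT.lam_norm hP) (fun γ f => cov_inv hG le_rfl hN1 b γ f)
      (fun γ f => cov_inv hG (by omega) hN2 l γ f) f g γ

/-- **[N-KL]**: `KeyStmt` from `NJBStmt` -/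
theorem keyStmt (hNJ : SN.NJBStmt k) : KeyStmt kS k μ := by
  intro N E Γ K _ _ _ _ _ _ w ι a a' π lam W Ω m q Z Ec F G h hG C l b hbC hlC hbl u g f hni
  have hN2 : 2 ≤ N := h.adm.hN
  have hN1 : 1 ≤ N := by omega
  obtain ⟨D, hD, hK⟩ := hNJ hN2
  -- the point `z` and the line `ν`
  let z : Gr kS (Fin (N + 1)) 1 := ⟨C.1 ⊓ l.1, finrank_inf C.2 l.2 hlC⟩
  have hzl : z.1 ≤ l.1 := inf_le_right
  have hbz : ¬ b.1 ≤ z.1 := fun e => hbl (e.trans hzl)
  let ν : Gr kS (Fin (N + 1)) 2 := ⟨b.1 ⊔ z.1, H218.NC.rank_join b z hbz⟩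
  have hPL : ∀ (x : Gr kS (Fin (N + 1)) 1) (y : Gr kS (Fin (N + 1)) 2), x.1 ≤ y.1 →
      SN.PL (G 1 x) (G 2 y) := fun x y hxy =>
    ⟨fun f g => hG.cal.com 1 2 le_rfl (by omega) hN2 x y hxy f g,
      fun u h => hG.cal.inc 1 2 le_rfl (by omega) hN2 x y hxy u h⟩
  have hni' : H232.Nin H218.NC.In (star f) u := by
    intro x hx
    rw [tsupport_star] at hx
    exact hni x hx
  -- the identity on `star D`
  have main : ∀ g' ∈ D, G N C u * G 2 l (star g') * G 1 b f = 0 := by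
    intro g' hg'
    have := key_one h hG (C := C) (l := l) (b := b) hbC hlC (u := u) (g := g') (f := star f)
      hni' fun R A hA =>
        hK q Z h.ud (G 1 b) (G 1 z) (G 2 l) (G 2 ν) (hPL z l hzl)
          (hPL z ν (show z.1 ≤ ν.1 from le_sup_right)) (hPL b ν (show b.1 ≤ ν.1 from le_sup_left))
          R A (star f) g' hg' hA
    rw [star_star] at this
    rw [mul_assoc]
    exact this
  refine H218.NC.mid_dense (G 2 l) (G N C u) (G 1 b f) (H68.Nj3.dense_star hD) ?_ g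
  rintro _ ⟨g', hg', rfl⟩
  exact main g' hg'


end key

end Vale.Agent.P092.SX
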