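import Vale.Agent.P092.SX.Blocks
import Vale.Agent.P092.H34.X.NRk

/-!
P092, TEAM N, two fields (helper232): `SX.RkIStmt` (proof of helper411, helper644, helper34).
-/

set_option linter.all false

open scoped InnerProductSpace
open ContinuousLinearMap

namespace Vale.Agent.P092.SX

open TopologicalSpace Topology Module Projectivization ContinuousLinearMap
open scoped Matrix LinearAlgebra.Projectivization
open Vale.Agent.P092.H100.Gr Vale.Agent.P092.H644.Gr3 Vale.Agent.P092.H644.PGr
open Vale.Agent.P092.H644.RkG Vale.Agent.P092.H618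
open Vale.Agent.P092.H789 (PG)
open Vale.Agent.P092.RC (Cm Moore)
open Vale.Agent.P092.H76.Pur (NIS)
open Vale.Agent.P092.H644.RkI hiding rkI

section main

variable {kS k : Type} [NontriviallyNormedField kS] [ProperSpace kS] [NontriviallyNormedField k]
  [ProperSpace k]

/-- the Grassmannians over `kS` and over `k` are empty together -/
theorem gr_of_gr {n j : ℕ} (X : Gr kS (Fin n) j) : Nonempty (Gr k (Fin n) j) := by
  have h : j ≤ n := by
    have h1 := Submodule.finrank_le X.1
    rw [X.2, Module.finrank_fin_fun] at h1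
    exact h1
  have h2 : LinearIndependent k fun i : Fin j => (Pi.basisFun k (Fin n)) (Fin.castLE h i) :=
    (Pi.basisFun k (Fin n)).linearIndependent.comp _ (Fin.castLE_injective h)
  refine ⟨⟨Submodule.span k (Set.range fun i : Fin j =>
    (Pi.basisFun k (Fin n)) (Fin.castLE h i)), ?_⟩⟩
  rw [finrank_span_eq_card h2, Fintype.card_fin]

/-- **[N-RKI]** the calculi of all subspaces, from those of the points and of the hyperplanes. -/
theorem rkI (hR : H618.RkStmt) [MeasurableSpace kS] {μ : MeasureTheory.Measure kS} :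
    RkIStmt kS k μ := by
  intro N E Γ K _ _ _ _ _ _ w ι a a' π lam W Ω m q Z Ec F h hW
  have hN : 1 ≤ N := le_trans (by norm_num) h.adm.hN
  letI actΓ : ∀ d, MulAction Γ (Y0 k N d) := fun d => MulAction.compHom _ (qP q h.ph)
  haveI csΓ : ∀ d, ContinuousConstSMul Γ (Y0 k N d) := fun d =>
    ⟨fun γ => continuous_const_smul (qP q h.ph γ)⟩
  letI actE : ∀ j, MulAction E (S0 kS N j) := fun j => MulAction.compHom _ a
  let pY : RC.YY k N ≃ₜ Y0 k N 1 := p1H.trans (idY k N 1)
  let hY : RC.YY k N ≃ₜ Y0 k N N := hypH.trans (idY k N N)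
  let lamY : S0 kS N N → (C(Y0 k N N, ℂ) →⋆ₐ[ℂ] (K →L[ℂ] K)) :=
    fun M => trC hY (F (hypH.symm M))
  let betY : S0 kS N 1 → (C(Y0 k N 1, ℂ) →⋆ₐ[ℂ] (K →L[ℂ] K)) :=
    fun c => trC pY (Ec (p1H.symm c))
  -- actions
  have hΓ : ∀ (γ : Γ) (d : ℕ) (L : Gr k (Fin (N + 1)) d),
      γ⁻¹ • (idY k N d L) = idY k N d ((q γ)⁻¹ • L) := fun γ d L => qP_inv_smul γ L
  have hM : ∀ (e : E) (M : S0 kS N N), hypH.symm (e • M) = a' e • hypH.symm M := by
    intro e M
    apply hypH.injective
    refine (hypH.apply_symm_apply _).trans ?_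
    change a e • M = hyp (a' e • hypH.symm M)
    rw [hyp_of_ort (h.adm.ort e)]
    exact congrArg (fun X : Gr kS (Fin (N + 1)) N => a e • X) (hypH.apply_symm_apply M).symm
  have hS : ∀ (g : RC.GG kS N) (j : ℕ) (X : Gr kS (Fin (N + 1)) j),
      (ι g • (show S0 kS N j from X) : S0 kS N j) = (show S0 kS N j from g • X) := by
    intro g j X
    change a (ι g) • X = _
    rw [← can_smul]
    exact smul_eq_of_pts (fun x => by rw [h.adm.comp, can_smul_pt]) _
  have stab : ∀ (e : E) (j : ℕ) (X : S0 kS N j), e • X = X ↔ SN.Prv a X.1 e := fun e j X =>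
    stab_iff (a e) (show Gr kS (Fin (N + 1)) j from X)
  have hinc : ∀ {c : S0 kS N 1} {M : S0 kS N N}, R0 1 N c M →
      SN.inc (p1H.symm c) (hypH.symm M) := by
    intro c M hcM
    refine p1_le_hyp.1 ?_
    have e1 : p1 (p1H.symm c) = c := p1H.apply_symm_apply c
    have e2 : hyp (hypH.symm M) = M := hypH.apply_symm_apply M
    rw [e1, e2]
    exact hcM
  have hD : RkData N I0 R0 Γ E lam π W lamY betY := by
    refine H34.XN.rkData_of h.pic N hN tgeo0 (sgeo0 hN a ι h.adm.comp)
      (fun γ i j L L' hL => smul_le_pg.2 hL) (fun j h1 h2 X => ?_)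
      (fun j h1 h2 A B hAB hX => ?_) (fun d h1 h2 => ?_) (fun M f => h.f.cm _ _)
      (fun γ M f => ?_) (fun e M f => ?_) (fun c T hT M hcM u f hn => ?_)
    · have h3 := h.adm.stb X.1 X.1
      have h4 : {e : E | e • X = X} = {e | SN.Prv a X.1 e ∧ SN.Prv a X.1 e} := by
        ext e
        rw [Set.mem_setOf_eq, Set.mem_setOf_eq, stab, and_self]
      rw [h4]
      exact h3
    · have h3 := h.adm.stb A.1 B.1
      have h4 : {e : E | e • A = A ∧ e • B = B} = {e | SN.Prv a A.1 e ∧ SN.Prv a B.1 e} := by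
        ext e
        rw [Set.mem_setOf_eq, Set.mem_setOf_eq, stab, stab]
      rw [h4]
      exact h3
    · exact nis_homeo (idY k N d) (act := fun γ L => q γ • L) (fun γ L => rfl) (h.nis d h1 h2)
    · have h3 := h.f.cov γ (hypH.symm M) (f.comp (hY : C(RC.YY k N, Y0 k N N)))
      refine h3.trans ?_
      change F (hypH.symm M) _ = F (hypH.symm M) _
      congr 1
      ext x
      change f (idY k N N (hyp ((RC.ct (q γ))⁻¹ • x))) = f (γ⁻¹ • idY k N N (hyp x))
      rw [hyp_ct, hΓ]
    · have h3 := h.f.pcov e (hypH.symm M) (f.comp (hY : C(RC.YY k N, Y0 k N N)))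
      refine h3.trans ?_
      change _ = F (hypH.symm (e • M)) _
      rw [hM]
      rfl
    · refine hW (p1H.symm c) T ?_ (hypH.symm M) (hinc hcM)
        (u.comp (pY : C(RC.YY k N, Y0 k N 1))) (f.comp (hY : C(RC.YY k N, Y0 k N N))) ?_
      · refine StarAlgebra.adjoin_mono ?_ hT
        rintro _ ⟨M', f', hM', rfl⟩
        exact ⟨hypH.symm M', f'.comp (hY : C(RC.YY k N, Y0 k N N)), hinc hM', rfl⟩
      · intro x hx l hl hxl
        rw [tsupport_homeo] at hx hl
        exact hn _ hx _ hl (p1_le_hyp.2 hxl)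
  obtain ⟨G', hG'⟩ := hR K N (Y0 k N) I0 (S0 kS N) R0 Γ E lam π W lamY betY
    (fun j X => (gr_of_gr (k := k) (show Gr kS (Fin (N + 1)) j from X)).map (idY k N j)) hD
  refine ⟨fun j X => trC (idY k N j).symm (G' j X), ?_, ?_, ?_, ?_, ?_, ?_, ?_⟩
  · refine ⟨fun i j h1 h2 h3 X X' hX f f' => hG'.com i j h1 h2 h3 X X' hX _ _,
      fun i j h1 h2 h3 X X' hX u f hn => ?_, fun c c' hne ξ hξ => ?_,
      fun j h1 h2 A B hne hX ξ hξ => ?_⟩
    · refine hG'.inc i j h1 h2 h3 X X' hX
        (u.comp ((idY k N i).symm : C(Y0 k N i, Gr k (Fin (N + 1)) i)))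
        (f.comp ((idY k N j).symm : C(Y0 k N j, Gr k (Fin (N + 1)) j))) fun x hx y hy hxy => ?_
      rw [tsupport_homeo] at hx hy
      exact hn _ hx _ hy hxy
    · refine h.e.agr (p1H.symm c) (p1H.symm c') (fun he => hne (p1H.symm.injective he)) ξ
        fun f => ?_
      let s1 : Gr k (Fin (N + 1)) 1 ≃ₜ RC.YY k N := p1H.symm
      have h3 := hξ (f.comp (s1 : C(Gr k (Fin (N + 1)) 1, RC.YY k N)))
      have h4 : ∀ c : Gr kS (Fin (N + 1)) 1, trC (idY k N 1).symm (G' 1 c)
          (f.comp (s1 : C(Gr k (Fin (N + 1)) 1, RC.YY k N))) = Ec (p1H.symm c) f := by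
        intro c
        refine (hG'.pnt c _).trans ?_
        change Ec (p1H.symm c) _ = _
        congr 1
        ext x
        change f (p1H.symm (p1H x)) = f x
        rw [Homeomorph.symm_apply_apply]
      rw [h4, h4] at h3
      exact h3
    · refine hG'.agr j h1 h2 A B hne hX ξ fun f => ?_
      exact hξ (f.comp (idY k N (j + 1) : C(Gr k (Fin (N + 1)) (j + 1), Y0 k N (j + 1))))
  · intro c f
    refine (hG'.pnt (p1 c) _).trans ?_
    change Ec (p1H.symm (p1H c)) _ = _
    rw [Homeomorph.symm_apply_apply]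
    rfl
  · intro M f
    refine (hG'.top (hyp M) _).trans ?_
    change F (hypH.symm (hypH M)) _ = _
    rw [Homeomorph.symm_apply_apply]
    rfl
  · intro j h1 h2 X f w hw
    exact (hG'.covW j h1 h2 X w hw _).symm
  · intro j h1 h2 γ X f
    refine (hG'.covG j h1 h2 X γ _).trans ?_
    change G' j X _ = G' j X _
    congr 1
    ext y
    change f ((idY k N j).symm (γ⁻¹ • y)) = f ((q γ)⁻¹ • (idY k N j).symm y)
    rw [show γ⁻¹ • y = _ from hΓ γ j ((idY k N j).symm y)]
    rfl
  · intro j h1 h2 g X f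
    refine (hG'.covπ j h1 h2 X (ι g) _).trans ?_
    change _ = G' j (show S0 kS N j from g • X) _
    rw [← hS]
  · intro j h1 h2 X T hT f
    refine hG'.cen j h1 h2 X T (fun M f' hM' => ?_) _
    refine hT (hypH.symm M) (f'.comp (hY : C(RC.YY k N, Y0 k N N))) ?_
    have e2 : hyp (hypH.symm M) = M := hypH.apply_symm_apply M
    rw [e2]
    exact hM'


/-- **[N-RKI]**, any two local fields -/
theorem rkIStmt {kS k : Type} [NontriviallyNormedField kS] [ProperSpace kS]
    [NontriviallyNormedField k] [ProperSpace k] [MeasurableSpace kS]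
    {μ : MeasureTheory.Measure kS} : RkIStmt kS k μ :=
  rkI H560.rkStmt

end main

end Vale.Agent.P092.SX
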