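import Vale.Agent.P092.SX.NW0
import Vale.Agent.P092.SX.NRk
import Vale.Agent.P092.SX.NK
import Vale.Agent.P092.H596.N.W0
import Vale.Agent.P092.H914.Fin

/-!
P092, TEAM N, two fields (helper232): `SX.LegComm`, any source field, any local target field.
-/

set_option linter.all false

open MeasureTheory

namespace Vale.Agent.P092.SX

variable {kS k : Type} [NontriviallyNormedField kS] [ProperSpace kS] [MeasurableSpace kS]
  [BorelSpace kS] [NontriviallyNormedField k] [ProperSpace k] {μ : Measure kS}
  [IsFiniteMeasureOnCompacts μ] [μ.IsOpenPosMeasure]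

/-- **[N-W0]**, two fields -/
theorem w0Stmt (hk : H933.LocK k) : W0Stmt kS k μ := w0Stmt_of (H596.N.njwStmt hk)

/-- **in one leg everything commutes**, two fields -/
theorem legComm (hk : H933.LocK k) : LegComm kS k μ :=
  legComm_of (w0Stmt hk) rkIStmt (keyStmt (H914.njbStmt hk))

end Vale.Agent.P092.SX
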