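import Vale.Agent.P092.SX.Blocks
import Vale.Agent.P092.H34.X.NC

/-!
P092, TEAM N, two fields (helper232): the counting principle of helper790 for a two-field leg.
-/

set_option linter.all false

open scoped InnerProductSpace ENNReal LinearAlgebra.Projectivization
open Filter Topology ContinuousLinearMap MeasureTheory TopologicalSpace

namespace Vale.Agent.P092.SX

open Vale.Agent.P092.SN (CY CG inc NInc bw un nm NW Att act PH UD NWA actG fp fh Prv Adm)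
open Vale.Agent.P092.SD (Ms UC)
open Vale.Agent.P092.RC (Cm TRN PicX GG PG YY y0 ct)
open Vale.Agent.P092.H790.CTA (ORBG SIZEG csm)
open Vale.Agent.P092.H790.CT (PicL)
open Vale.Agent.P092.H790.CTN (un_tendsto ph_trans nm_pos ct_cont ph_ct)
open Vale.Agent.P092.H34.XN (picL)

section main

variable {kS k : Type} [NontriviallyNormedField kS] [ProperSpace kS] [NontriviallyNormedField k]
  [ProperSpace k] {N : ℕ} {E Γ K : Type} [Group E]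
  [TopologicalSpace E] [Group Γ] [NormedAddCommGroup K] [InnerProductSpace ℂ K] [CompleteSpace K]
  [MeasurableSpace kS] [BorelSpace kS] {μ : Measure kS} [IsFiniteMeasureOnCompacts μ]
  [μ.IsOpenPosMeasure]
  {w : kSˣ} {ι : GG kS N →* E} {a a' : E →* PG kS (N + 1)} {π : E →* (K →L[ℂ] K)}
  {lam : Γ →* (K →L[ℂ] K)} {W : Set (K →L[ℂ] K)} {Ω : K} {m : Set Γ → (K →L[ℂ] K)}
  {q : Γ → GG k N} {Z : ℝ → Set Γ} {Ec F : YY kS N → (CY k N →⋆ₐ[ℂ] (K →L[ℂ] K))}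

/-- **Counting for one family of calculi.** -/
theorem fam_mul_zero (htg : IsTopologicalGroup E) (hι : Continuous ι) (hP : PicL π lam W Ω)
    (hM : Ms lam W Ω m) (hUC : UC π W Ω m) (hph : PH q) {j : Fin (N + 1)}
    (hj : (0 : Fin (N + 1)) ≠ j)
    (horb : ∃ ρ : ℝ, 0 < ρ ∧ ρ < 1 ∧ ORBG μ (ι (bw w)) (fun s => ι (un hj s)) ρ π lam W Ω)
    (hsize : SIZEG (ι (bw w)) π Ω m fun γ => nm (q γ))
    (hE : EFam w ι a π lam W m q Z Ec) {g : GG kS N} {B : K →L[ℂ] K} (hB : Cm W B)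
    (hb : Commute B (π (ι (g * bw w * g⁻¹)))) (hn : ∀ s, Commute B (π (ι (g * un hj s * g⁻¹))))
    {A : Set (YY k N)} (hA : IsOpen A) {u : CY k N} (hu : tsupport u ⊆ A)
    (hc : ∀ R : ℝ, ∃ T > 0, ∃ (C : ℝ) (d : ℕ), ∀ J : ℝ, 0 ≤ J → ∀ S : Finset Γ,
      (∀ γ ∈ S, γ ∈ NWA q Z R T A ∧ Real.log (nm (q γ)) ≤ J) →
      ∑ γ ∈ S, ‖adjoint B (lam γ Ω)‖ ^ 2 ≤ C * (1 + J) ^ d) :
    Ec (g • y0) u * B = 0 := by
  haveI := htg
  obtain ⟨ρ, hρ, hρ1, hORB⟩ := horb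
  have hnc : Tendsto (fun s : kS => ι (un hj s)) (𝓝 0) (𝓝 1) := by
    have h1 := (hι.tendsto 1).comp (un_tendsto (k := kS) hj)
    rwa [map_one] at h1
  have hb' : Commute B (π (ι g * ι (bw w) * (ι g)⁻¹)) := by
    rw [← map_mul, ← map_inv, ← map_mul]
    exact hb
  have hn' : ∀ s, Commute B (π (ι g * ι (un hj s) * (ι g)⁻¹)) := fun s => by
    rw [← map_mul, ← map_inv, ← map_mul]
    exact hn s
  refine H790.CTA.mul_zero_of_dom (μ := μ) (n := fun s => ι (un hj s)) (b := ι (bw w)) (ρ := ρ)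
    hP hM hUC hρ.le hnc hORB (ph_trans hph) hsize (g := ι g) hB hb' hn'
    (c := ‖u‖) ?_
  intro ζ ε hε
  obtain ⟨R, hR⟩ := hE.dom g u A hA hu ζ ε hε
  obtain ⟨T, hT, C, d, hcT⟩ := hc R
  obtain ⟨η, hη, hpoly⟩ := H790.CTA.of_poly (K := K) (lam := lam) (Ω := Ω)
    (sz := fun γ => nm (q γ)) hρ hρ1 (fun γ => nm_pos (q γ)) d
  refine ⟨NWA q Z R T A, ⟨η, hη, hpoly B (NWA q Z R T A) C hcT⟩, ?_⟩
  filter_upwards [hR T hT] with t ht
  have e1 : (ι g * ι (bw w) ^ t * (ι g)⁻¹)⁻¹ = (ι (g * bw w ^ t * g⁻¹))⁻¹ := by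
    rw [map_mul, map_mul, map_pow, map_inv]
  rw [e1]
  exact ht

/-- **The counting principle for the points.** -/
theorem e_mul_zero (h : LegN μ w ι a a' π lam W Ω m q Z Ec F) {g : GG kS N} {j : Fin (N + 1)}
    (hj : (0 : Fin (N + 1)) ≠ j) {B : K →L[ℂ] K} (hB : Cm W B)
    (hb : Commute B (π (ι (g * bw w * g⁻¹)))) (hn : ∀ s, Commute B (π (ι (g * un hj s * g⁻¹))))
    {A : Set (YY k N)} (hA : IsOpen A) {u : CY k N} (hu : tsupport u ⊆ A)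
    (hc : ∀ R : ℝ, ∃ T > 0, ∃ (C : ℝ) (d : ℕ), ∀ J : ℝ, 0 ≤ J → ∀ S : Finset Γ,
      (∀ γ ∈ S, γ ∈ NWA q Z R T A ∧ Real.log (nm (q γ)) ≤ J) →
      ∑ γ ∈ S, ‖adjoint B (lam γ Ω)‖ ^ 2 ≤ C * (1 + J) ^ d) :
    Ec (g • y0) u * B = 0 :=
  fam_mul_zero (μ := μ) h.adm.tg h.adm.cι (picL h.pic) h.ms h.uc h.ph hj (h.orb hj) h.size h.e
    hB hb hn hA hu hc

/-- **The counting principle for the hyperplanes.** -/
theorem f_mul_zero (h : LegN μ w ι a a' π lam W Ω m q Z Ec F) {g : GG kS N} {j : Fin (N + 1)}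
    (hj : (0 : Fin (N + 1)) ≠ j) {B : K →L[ℂ] K} (hB : Cm W B)
    (hb : Commute B (π (ι (ct (g * bw w * g⁻¹)))))
    (hn : ∀ s, Commute B (π (ι (ct (g * un hj s * g⁻¹)))))
    {A : Set (YY k N)} (hA : IsOpen A) {u : CY k N} (hu : tsupport u ⊆ A)
    (hc : ∀ R : ℝ, ∃ T > 0, ∃ (C : ℝ) (d : ℕ), ∀ J : ℝ, 0 ≤ J → ∀ S : Finset Γ,
      (∀ γ ∈ S, γ ∈ NWA (fun γ => ct (q γ)) Z R T A ∧ Real.log (nm (ct (q γ))) ≤ J) →
      ∑ γ ∈ S, ‖adjoint B (lam γ Ω)‖ ^ 2 ≤ C * (1 + J) ^ d) :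
    F (g • y0) u * B = 0 :=
  fam_mul_zero (μ := μ) (ι := ι.comp ct) (a := a') h.adm.tg (h.adm.cι.comp ct_cont) (picL h.pic)
    h.ms h.uc (ph_ct h.ph) hj (h.orb' hj) h.size' h.f hB hb hn hA hu hc

end main

end Vale.Agent.P092.SX
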