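import Vale.Agent.P092.SX.NC
import Vale.Agent.P092.H34.X.NW0

/-!
P092, TEAM N, two fields (helper232): `SX.W0Stmt` from `NJWStmt` of the target field (proof of
helper890, helper34).
-/

set_option linter.all false

open scoped InnerProductSpace ENNReal LinearAlgebra.Projectivization
open Filter Topology ContinuousLinearMap MeasureTheory TopologicalSpace

namespace Vale.Agent.P092.SX

open Vale.Agent.P092.SN (CY CG inc NInc bw un nm NW Att act PH UD NWA actG fp fh Prv Adm)
open Vale.Agent.P092.SD (Ms UC)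
open Vale.Agent.P092.RC (Cm TRN Moore GG PG YY y0 ct)
open Vale.Agent.P092.H790.CTA (ORBG SIZEG)
open Vale.Agent.P092.H790.CT (PicL)
open Vale.Agent.P092.H34.XN (picL)
open Vale.Agent.P092.H890.W0F (conj_fix bw_fix un_fix exists_room act_inv)

section words

variable {kS k : Type} [NontriviallyNormedField kS] [ProperSpace kS] [NontriviallyNormedField k]
  [ProperSpace k] {N : ℕ} {K : Type}
  [NormedAddCommGroup K] [InnerProductSpace ℂ K] [CompleteSpace K]

/-- a word in the calculi `F` -/
noncomputable def wd (F : YY kS N → (CY k N →⋆ₐ[ℂ] (K →L[ℂ] K))) (L : List (YY kS N × CY k N)) :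
    K →L[ℂ] K := (L.map fun p => F p.1 p.2).prod

theorem wd_cons (F : YY kS N → (CY k N →⋆ₐ[ℂ] (K →L[ℂ] K))) (p : YY kS N × CY k N)
    (L : List (YY kS N × CY k N)) : wd F (p :: L) = F p.1 p.2 * wd F L := by
  rw [wd, List.map_cons, List.prod_cons]
  rfl

theorem wd_append (F : YY kS N → (CY k N →⋆ₐ[ℂ] (K →L[ℂ] K)))
    (L L' : List (YY kS N × CY k N)) : wd F (L ++ L') = wd F L * wd F L' := by
  rw [wd, List.map_append, List.prod_append]
  rfl

theorem wd_single (F : YY kS N → (CY k N →⋆ₐ[ℂ] (K →L[ℂ] K))) (p : YY kS N × CY k N) :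
    wd F [p] = F p.1 p.2 := by
  rw [wd, List.map_singleton, List.prod_singleton]

/-- the adjoint word -/
noncomputable def rv (L : List (YY kS N × CY k N)) : List (YY kS N × CY k N) :=
  (L.map fun p => (p.1, star p.2)).reverse

theorem rv_cons (p : YY kS N × CY k N) (L : List (YY kS N × CY k N)) :
    rv (p :: L) = rv L ++ [(p.1, star p.2)] := by
  rw [rv, List.map_cons, List.reverse_cons]
  rfl

theorem adj_wd (F : YY kS N → (CY k N →⋆ₐ[ℂ] (K →L[ℂ] K))) (L : List (YY kS N × CY k N)) :
    adjoint (wd F L) = wd F (rv L) := by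
  induction L with
  | nil =>
    change adjoint (1 : K →L[ℂ] K) = 1
    rw [← star_eq_adjoint, star_one]
  | cons p L ih =>
    rw [wd_cons, rv_cons, wd_append, wd_single, ← ih, ← star_eq_adjoint, ← star_eq_adjoint,
      star_mul, ← map_star]

/-- translated word -/
noncomputable def tw (g : GG k N) (L : List (YY kS N × CY k N)) : List (YY kS N × CY k N) :=
  L.map fun p => (p.1, act g p.2)

variable {Γ : Type} [Group Γ] {lam : Γ →* (K →L[ℂ] K)}
  {F : YY kS N → (CY k N →⋆ₐ[ℂ] (K →L[ℂ] K))}

theorem wd_lam {t : Γ → GG k N}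
    (cov : ∀ γ x f, lam γ * F x f * lam γ⁻¹ = F x (act (t γ) f)) (γ : Γ)
    (L : List (YY kS N × CY k N)) (ξ : K) : wd F L (lam γ ξ) = lam γ (wd F (tw (t γ⁻¹) L) ξ) := by
  induction L with
  | nil => rfl
  | cons p L ih =>
    have e : tw (t γ⁻¹) (p :: L) = (p.1, act (t γ⁻¹) p.2) :: tw (t γ⁻¹) L := rfl
    rw [e, wd_cons, wd_cons]
    change F p.1 p.2 (wd F L (lam γ ξ)) = lam γ (F p.1 (act (t γ⁻¹) p.2) (wd F (tw (t γ⁻¹) L) ξ))
    rw [ih]
    exact H124.KL.cov_apply (t := fun γ f => act (t γ) f) (fun γ f => cov γ p.1 f) γ p.2 _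

end words

section dense

variable {kS k : Type} [NontriviallyNormedField kS] [ProperSpace kS] [NontriviallyNormedField k]
  [ProperSpace k] {N : ℕ} {K : Type}
  [NormedAddCommGroup K] [InnerProductSpace ℂ K] [CompleteSpace K]
  {F : YY kS N → (CY k N →⋆ₐ[ℂ] (K →L[ℂ] K))} {D : Set (CY k N)} {c : YY kS N}

theorem calc_cont (b : CY k N →⋆ₐ[ℂ] (K →L[ℂ] K)) : Continuous b := by
  refine AddMonoidHomClass.continuous_of_bound b 1 fun f => ?_
  rw [one_mul]
  exact NonUnitalStarAlgHom.norm_apply_le b f

variable (F D c) in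
/-- the algebra of the words with letters in `star D` -/
noncomputable def A0 : Subalgebra ℂ (K →L[ℂ] K) :=
  Algebra.adjoin ℂ {T | ∃ M f, inc c M ∧ star f ∈ D ∧ T = F M f}

theorem letter_mem (hD : closure (Submodule.span ℂ D : Set (CY k N)) = Set.univ) {M : YY kS N}
    (hM : inc c M) (f : CY k N) : F M f ∈ (A0 F D c).topologicalClosure := by
  have h1 : ∀ g ∈ Submodule.span ℂ D, F M (star g) ∈ A0 F D c := by
    intro g hg
    induction hg using Submodule.span_induction with
    | mem g hg => exact Algebra.subset_adjoin ⟨M, star g, hM, by rwa [star_star], rfl⟩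
    | zero =>
      rw [star_zero, map_zero]
      exact zero_mem _
    | add x y _ _ hx hy =>
      rw [star_add, map_add]
      exact add_mem hx hy
    | smul a x _ hx =>
      rw [star_smul, map_smul]
      exact (A0 F D c).smul_mem hx _
  have h2 : Continuous fun g : CY k N => F M (star g) := (calc_cont (F M)).comp continuous_star
  have h3 : ∀ g : CY k N, F M (star g) ∈ closure (A0 F D c : Set (K →L[ℂ] K)) := by
    intro g
    have h4 : g ∈ closure (Submodule.span ℂ D : Set (CY k N)) := by
      rw [hD]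
      trivial
    exact map_mem_closure (f := fun g : CY k N => F M (star g)) h2 h4 h1
  have h5 := h3 (star f)
  rw [star_star] at h5
  exact h5

theorem wa_le (hD : closure (Submodule.span ℂ D : Set (CY k N)) = Set.univ) {T : K →L[ℂ] K}
    (hT : T ∈ WA F c) : T ∈ (A0 F D c).topologicalClosure := by
  have h1 : T ∈ (A0 F D c).topologicalClosure ∧ star T ∈ (A0 F D c).topologicalClosure := by
    induction hT using StarAlgebra.adjoin_induction with
    | mem x hx =>
      obtain ⟨M, f, hM, rfl⟩ := hx
      refine ⟨letter_mem hD hM f, ?_⟩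
      rw [← map_star]
      exact letter_mem hD hM _
    | algebraMap r =>
      refine ⟨Subalgebra.algebraMap_mem _ r, ?_⟩
      rw [← algebraMap_star_comm]
      exact Subalgebra.algebraMap_mem _ _
    | add x y _ _ hx hy => exact ⟨add_mem hx.1 hy.1, by rw [star_add]; exact add_mem hx.2 hy.2⟩
    | mul x y _ _ hx hy => exact ⟨mul_mem hx.1 hy.1, by rw [star_mul]; exact mul_mem hy.2 hx.2⟩
    | star x _ hx => exact ⟨hx.2, by rw [star_star]; exact hx.1⟩
  exact h1.1

/-- to be killed on both sides is a property of the words -/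
theorem kill {P Q : K →L[ℂ] K} (hD : closure (Submodule.span ℂ D : Set (CY k N)) = Set.univ)
    (h : ∀ L : List (YY kS N × CY k N), (∀ p ∈ L, inc c p.1 ∧ star p.2 ∈ D) →
      P * wd F L * Q = 0) {T : K →L[ℂ] K} (hT : T ∈ WA F c) : P * T * Q = 0 := by
  let U : Submodule ℂ (K →L[ℂ] K) :=
    { carrier := {T | P * T * Q = 0}
      zero_mem' := by
        change P * 0 * Q = 0
        rw [mul_zero, zero_mul]
      add_mem' := fun {x y} hx hy => by
        change P * (x + y) * Q = 0
        rw [mul_add, add_mul, show P * x * Q = 0 from hx, show P * y * Q = 0 from hy, add_zero]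
      smul_mem' := fun a x hx => by
        change P * (a • x) * Q = 0
        rw [mul_smul_comm, smul_mul_assoc, show P * x * Q = 0 from hx, smul_zero] }
  have hU : IsClosed (U : Set (K →L[ℂ] K)) := by
    have h1 : Continuous fun T : K →L[ℂ] K => P * T * Q := by fun_prop
    exact isClosed_singleton.preimage h1
  have h2 : Subalgebra.toSubmodule (A0 F D c) ≤ U := by
    rw [A0, Algebra.adjoin_eq_span, Submodule.span_le]
    intro x hx
    obtain ⟨l, hl, rfl⟩ := Submonoid.exists_list_of_mem_closure hx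
    have h3 : ∃ L : List (YY kS N × CY k N), (∀ p ∈ L, inc c p.1 ∧ star p.2 ∈ D) ∧
        l.prod = wd F L := by
      clear hx
      induction l with
      | nil => exact ⟨[], by simp, rfl⟩
      | cons y l ih =>
        obtain ⟨L, hL, hLe⟩ := ih fun z hz => hl z (List.mem_cons_of_mem _ hz)
        obtain ⟨M, f, hM, hf, rfl⟩ := hl y List.mem_cons_self
        refine ⟨(M, f) :: L, ?_, ?_⟩
        · intro p hp
          rcases List.mem_cons.1 hp with rfl | hp
          · exact ⟨hM, hf⟩
          · exact hL p hp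
        · rw [List.prod_cons, hLe, wd_cons]
    obtain ⟨L, hL, hLe⟩ := h3
    rw [hLe]
    exact h L hL
  have h4 := wa_le (F := F) hD hT
  exact (closure_minimal (s := (A0 F D c : Set (K →L[ℂ] K))) h2 hU) h4

end dense

section main

variable {kS k : Type} [NontriviallyNormedField kS] [ProperSpace kS] [MeasurableSpace kS]
  [BorelSpace kS] [NontriviallyNormedField k] [ProperSpace k]
  {μ : Measure kS} [IsFiniteMeasureOnCompacts μ] [μ.IsOpenPosMeasure]

theorem w0Stmt_of (h0 : H890.W0F.NJWStmt k) : W0Stmt kS k μ := by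
  intro N E Γ K _ _ _ _ _ _ w ι a a' π lam W Ω m q Z Ec F h
  obtain ⟨D, hD, hcount⟩ := h0 h.adm.hN
  intro c T hT M hM u f hn
  refine kill hD ?_ hT
  intro L hL
  obtain ⟨g, hg⟩ := MulAction.exists_smul_eq (GG kS N) (y0 : YY kS N) c
  obtain ⟨A, hA, huA, hAn⟩ := exists_room hn
  have hN := h.adm.hN
  have hj : (0 : Fin (N + 1)) ≠ ⟨1, by omega⟩ := Fin.ne_of_val_ne (by simp)
  -- commutation
  have hcom : ∀ x : GG kS N, (∀ M : YY kS N, inc (y0 : YY kS N) M → ct x • M = M) →
      Commute (wd F L * F M f) (π (ι (g * x * g⁻¹))) := by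
    intro x hx
    have h1 : ∀ M' f', inc c M' → Commute (F M' f') (π (ι (g * x * g⁻¹))) := by
      intro M' f' hM'
      have h2 : a' (ι (g * x * g⁻¹)) • M' = M' := by
        rw [h.adm.comp']
        exact conj_fix hx (by rw [hg]; exact hM')
      have h3 := h.f.pcov (ι (g * x * g⁻¹)) M' f'
      rw [h2] at h3
      have h4 : π (ι (g * x * g⁻¹))⁻¹ * π (ι (g * x * g⁻¹)) = 1 := by
        rw [← map_mul, inv_mul_cancel, map_one]
      have h5 : F M' f' * π (ι (g * x * g⁻¹)) = π (ι (g * x * g⁻¹)) * F M' f' := by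
        conv_lhs => rw [← h3]
        rw [mul_assoc, h4, mul_one]
      exact h5
    have h2 : Commute (wd F L) (π (ι (g * x * g⁻¹))) := by
      clear hT
      induction L with
      | nil => exact Commute.one_left _
      | cons p L ih =>
        rw [wd_cons]
        exact (h1 p.1 p.2 (hL p List.mem_cons_self).1).mul_left
          (ih fun p hp => hL p (List.mem_cons_of_mem _ hp))
    exact h2.mul_left (h1 M f hM)
  have hB : Cm W (wd F L * F M f) := by
    have h1 : ∀ L : List (YY kS N × CY k N), Cm W (wd F L) := by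
      intro L
      induction L with
      | nil => exact fun w _ => by rw [show wd F [] = 1 from rfl, one_mul, mul_one]
      | cons p L ih =>
        intro w hw
        rw [wd_cons, mul_assoc, ih w hw, ← mul_assoc, h.f.cm p.1 p.2 w hw, mul_assoc]
    intro w hw
    rw [mul_assoc, h.f.cm M f w hw, ← mul_assoc, h1 L w hw, mul_assoc]
  rw [mul_assoc, ← hg]
  refine e_mul_zero (μ := μ) h hj hB (hcom _ fun M hM => bw_fix w hM)
    (fun s => hcom _ fun M hM => un_fix hj s hM) hA huA ?_
  intro R
  have hns : NInc (closure A) (tsupport (star f)) := by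
    have e : tsupport (star f) = tsupport f := by
      rw [tsupport, tsupport]
      congr 1
      ext x
      simp [Function.mem_support]
    rw [e]
    exact hAn
  obtain ⟨T', hT', C, d, hC⟩ := hcount q Z h.ud (F M)
    ((rv L).map fun p => (F p.1, p.2)) (by
      intro p hp
      obtain ⟨p', hp', rfl⟩ := List.mem_map.1 hp
      rw [rv, List.mem_reverse] at hp'
      obtain ⟨p'', hp'', rfl⟩ := List.mem_map.1 hp'
      exact (hL p'' hp'').2) R A (star f) hns
  refine ⟨T', hT', C, d, fun J hJ S hS => ?_⟩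
  have h1 := hC J hJ S hS Ω
  rw [h.pic.nΩ, one_pow, mul_one] at h1
  refine le_trans (le_of_eq (Finset.sum_congr rfl fun γ _ => ?_)) h1
  congr 1
  have e1 : adjoint (wd F L * F M f) = F M (star f) * wd F (rv L) := by
    rw [← adj_wd, ← star_eq_adjoint, star_mul, ← map_star, star_eq_adjoint]
  have e2 := wd_lam (lam := lam) (F := F) (t := fun γ => ct (q γ)) h.f.cov γ
    ((M, star f) :: rv L) Ω
  rw [e1, ← wd_cons F (M, star f) (rv L), e2, H790.CT.lam_norm (picL h.pic)]
  have e3 : tw (ct (q γ⁻¹)) ((M, star f) :: rv L) =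
      (M, act (ct (q γ)⁻¹) (star f)) :: (rv L).map fun p => (p.1, act (ct (q γ)⁻¹) p.2) := by
    rw [tw, List.map_cons]
    simp only [act_inv h.ph]
  rw [e3, wd_cons, wd, List.map_map, List.map_map]
  rfl

end main

end Vale.Agent.P092.SX
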